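import Vale.Agent.P014Z.Ra.Rax0
import Vale.Agent.P014Y.Mu.Rse

/-! # P014Z, block Ra: the export without hypotheses (helper58) -/

set_option autoImplicit false
set_option linter.all false

namespace Vale.Agent.P014Z.Ra

open Vale.Agent.P014U

/-- **the count** -/
theorem rax [Pp] : Gl.RAX := rax0 P014Y.Mu.rse P014Y.Bo.lev2

end Vale.Agent.P014Z.Ra
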