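import Vale.Agent.P014Z.Ra.Or0
import Vale.Agent.P014Y.Rd.St1
import Vale.Agent.P022K.Cheb.Main
import Vale.Agent.P022E.GW.Hyp
import Vale.Agent.P022E.GW.TauG

/-! # P014Z, block Ra: duality (helper16) -/

set_option autoImplicit false
set_option linter.all false

open NumberField PowerSeries
open scoped Pointwise

noncomputable section

namespace Vale.Agent.P014Z.Ra.Du

open Vale.Agent.P022 Vale.Agent.P022K.G2 Vale.Agent.P014U Ml
open Vale.Agent.P027M.S (Inert)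
open Vale.Agent.P022D.W (dec)
open Vale.Agent.P022.H443 (inP)
open Vale.Agent.P022E.GW (Ov Fb)
open P004F.Pr (ac)
open P014Y.Rd (RECS)

theorem pick {Y X : Type} [Nonempty X] (G : Y → ℕ → X → Prop) (s : Finset Y)
    (h : ∀ y ∈ s, ∀ E : Finset ℕ, ∃ l ∉ E, ∃ x, G y l x) : ∃ (L : Finset ℕ) (x : ℕ → X),
    (∀ l ∈ L, ∃ y, G y l (x l)) ∧ ∀ y ∈ s, ∃ l ∈ L, G y l (x l) := by
  classical
  induction s using Finset.induction_on with
  | empty => exact ⟨∅, fun _ => Classical.arbitrary X, by simp, by simp⟩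
  | insert y s _ ih =>
    obtain ⟨L, x, a, b⟩ := ih fun y m => h y (Finset.mem_insert_of_mem m)
    obtain ⟨l, n, x₀, g⟩ := h y (Finset.mem_insert_self _ _) L
    have u : ∀ q ∈ L, Function.update x l x₀ q = x q := fun q m =>
      Function.update_of_ne (ne_of_mem_of_not_mem m n) _ _
    refine ⟨insert l L, Function.update x l x₀, Finset.forall_mem_insert .. |>.2
      ⟨⟨y, by simpa using g⟩, fun q m => u q m ▸ a q m⟩, Finset.forall_mem_insert .. |>.2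
      ⟨⟨l, Finset.mem_insert_self _ _, by simpa using g⟩, fun y m => ?_⟩⟩
    obtain ⟨q, k, e⟩ := b y m
    exact ⟨q, Finset.mem_insert_of_mem k, u q k ▸ e⟩

variable {l : ℕ} {P Q : Ideal (𝓞 Qb)} {g h φ : GQ} {Γ W : Subgroup GQ} {T : Finset ℕ}

theorem ov_sm (o : Ov l P) (t : GQ) : Ov l (t • P) :=
  ⟨o.1, haveI := o.2.1; inferInstance, by
    rw [mem_smul,
      show t⁻¹ • (l : 𝓞 Qb) = l from map_natCast (MulSemiringAction.toRingHom GQ (𝓞 Qb) t⁻¹) l]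
    exact o.2.2⟩

theorem fb_sm (f : Fb l P φ) (t : GQ) : Fb l (t • P) (t * φ * t⁻¹) := fun x => by
  rw [mem_smul, smul_sub, mul_smul, mul_smul, inv_smul_smul, smul_pow']
  exact f _

theorem dec_sm {t : GQ} (h : g ∈ dec P) : t * g * t⁻¹ ∈ dec (t • P) := fun x => by
  rw [mem_smul, mem_smul, mul_smul, mul_smul, inv_smul_smul]
  exact h _

theorem in_sm {t : GQ} (h : Inert P g) : Inert (t • P) (t * g * t⁻¹) := fun x => by
  rw [mem_smul, smul_sub, mul_smul, mul_smul, inv_smul_smul]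
  exact h _

theorem in_dec (h : Inert P g) : g ∈ dec P := fun x =>
  ⟨fun m => by simpa using sub_mem m (h x), fun m => by simpa using add_mem (h x) m⟩

theorem stab (h : g • P = P) : g ∈ dec P := fun x => by
  conv_lhs => rw [← h, mem_smul, inv_smul_smul]

theorem ov_eq {l' : ℕ} (o : Ov l P) (o' : Ov l' P) : l = l' :=
  (Nat.prime_dvd_prime_iff_eq o.1 o'.1).1 (by
    exact_mod_cast P004S.ov_dvd o (a := l') (by exact_mod_cast o'.2.2))

variable [Pp]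

/-- primes which split completely in the field of `W` -/
structure Gs (W : Subgroup GQ) (l : ℕ) (Q : Ideal (𝓞 Qb)) (φ : GQ) : Prop where
  ov : Ov l Q
  fb : Fb l Q φ
  md : pp ∣ l - 1
  le : ∀ Q, Ov l Q → dec Q ≤ W

theorem ex_gs (o : IsOpen (W : Set GQ)) (n : W.Normal) (t : ∀ w ∈ W, oz pp w = 1) {O : Set GQ}
    (oO : IsOpen O) (m : g ∈ O) (s : O ⊆ W) (E : Finset ℕ) :
    ∃ l ∉ E, ∃ Q, ∃ φ ∈ O, Gs W l Q φ := by
  obtain ⟨B, -, hB⟩ := P022E.GW.Hy.ex_ram o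
  obtain ⟨l, φ, a, b, ⟨Q, q1, q2, f⟩, d⟩ := P022K.Cheb.exists_fr oO m (insert pp (E ∪ B))
  simp only [Finset.mem_insert, Finset.mem_union, not_or] at b
  have ov : Ov l Q := ⟨a, q1, q2⟩
  refine ⟨l, b.2.1, Q, φ, d, ov, f, ?_, fun Q' o' g k => ?_⟩
  · let ζ : 𝓞 Qb := ⟨zt pp, (zt_prim pp).isIntegral pp_prime.pos⟩
    have k : ζ ^ pp = 1 := RingOfIntegers.ext zt_pow
    have e : φ (zt pp) = zt pp ^ l := congrArg Subtype.val (P022E.GW.Unr.root_inj q1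
      (p_notMem ov b.1) (by rw [← smul_pow', k, smul_one])
      (by rw [← pow_mul, mul_comm, pow_mul, k, one_pow]) (f ζ))
    rw [mem_Gz'.1 (mem_Gz.2 (t φ (s d))), ← pw_nat] at e
    rw [← ZMod.natCast_eq_zero_iff, Nat.cast_sub a.pos, ← pw_inj (p := pp) (a := 1) (b := l)
      (by rwa [ZMod.val_one, pow_one]), Nat.cast_one, sub_self]
  · obtain ⟨c, rfl⟩ := P022E.GW.Tg.trans ov o'
    obtain ⟨j, i, u, hi, hu, rfl⟩ := P022D.W.dec_gen a o'.2.1 o'.2.2 (fb_sm f c) k W o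
    exact mul_mem (mul_mem hu (pow_mem (n.conj_mem _ (s d) c) j)) (hB l b.2.2 _ o' i hi)

variable {R : Type} [CommRing R] {χ : GQ → R}

/-- the values of a cocycle -/
abbrev vl (z : Zr Γ T χ P) (g : GQ) : R := z.1.1 g 0

theorem co (z : Zr Γ T χ P) (a : g ∈ Γ) (b : h ∈ Γ) : vl z (g * h) = vl z g + χ g * vl z h := by
  simpa [ac, r1] using congrFun (z.2.1 g a h b) 0

theorem lc (z : Zr Γ T χ P) : ∃ V : Subgroup GQ, IsOpen (V : Set GQ) ∧ ∀ w ∈ V, vl z w = 0 :=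
  z.2.2.2.1.imp fun _ h => ⟨h.1, fun w m => congrFun (h.2 w m) 0⟩

theorem un (z : Zr Γ T χ P) (m : g ∈ In T) : vl z g = 0 := congrFun (z.2.2.2.2.1 g m) 0

theorem st (z : Zr Γ T χ P) (a : g ∈ Γ) (b : g ∈ dec P) : vl z g = 0 := by
  simpa [ac] using congrFun (z.2.2.2.2.2 () g ⟨a, b⟩) 0

theorem ex0 (z : Zr Γ T χ P) (h : ∀ g ∈ Γ, vl z g = 0) : z = 0 :=
  Subtype.ext (Prod.ext (funext fun g => (em (g ∈ Γ)).elim
    (fun m => funext fun i => Subsingleton.elim 0 i ▸ h g m) (z.2.2.1 g)) (Subsingleton.elim _ _))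

theorem mu (G : Ge Γ T (r1 χ)) (a : g ∈ Γ) (b : h ∈ Γ) : χ (g * h) = χ g * χ h := by
  simpa [r1, mul_comm] using congrFun (congrFun (G.mul g a h b) 0) 0

theorem ur (G : Ge Γ T (r1 χ)) (a : g ∈ Γ) (b : g ∈ In T) : χ g = 1 := by
  simpa [r1] using congrFun (congrFun (G.unr g a b) 0) 0

theorem cj (z : Zr Γ T χ P) (a : g ∈ Γ) (b : h ∈ Γ) (c : χ (h * g * h⁻¹) = 1) :
    vl z (h * g * h⁻¹) = χ h * vl z g := by
  have := co z (mul_mem (mul_mem b a) (inv_mem b)) b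
  rw [inv_mul_cancel_right, co z b a, c] at this
  linear_combination -this

theorem tm (ρ : (ZMod pp)⟦X⟧ →+* R) (z : Zr Γ T χ P) (o : Ov l Q) (n : l ≠ pp) {τ : GQ}
    (t : Gn l Q τ) (d : ∀ g ∈ dec Q, g ∈ Γ ∧ χ g = 1) (e : vl z τ = 0) (i : Inert Q g) :
    vl z g = 0 := by
  let := AddCommGroup.zmodModule (Or.pz ρ)
  obtain ⟨V, oV, hV⟩ := lc z
  obtain ⟨V', a, b⟩ := ex_lv oV V.one_mem
  obtain ⟨m, hm⟩ := (tam pp l Q o n).2.2 (ZMod pp) R (vl z) (fun g h a b => by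
    rw [co z (d g (in_dec a)).1 (d h (in_dec b)).1, (d g (in_dec a)).2, one_mul])
    ⟨V', a, fun w m _ => hV w (b m)⟩
  have := hm τ t.1
  rw [e, show ka pp l τ = 1 from t.2, map_one, one_smul] at this
  rw [hm g i, ← this, smul_zero]

theorem Ge.un (G : Ge Γ T (r1 χ)) {L : Finset ℕ} (pr : ∀ l ∈ L, l.Prime) : Ge Γ (T ∪ L) (r1 χ) :=
  ⟨G.opn, G.idx, G.cx, Finset.mem_union_left _ G.pm,
    fun l m => (Finset.mem_union.1 m).elim (G.pr l) (pr l), G.one, G.mul, G.lc,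
    fun g a ⟨l, n, k⟩ => G.unr g a ⟨l, fun m => n (Finset.mem_union_left _ m), k⟩⟩

/-- an abelian character which is not residually trivial at `P` -/
theorem inj {χ : GQ → R} (cm : ∀ g ∈ Γ, ∀ h ∈ Γ, g * h * (h * g)⁻¹ ∈ W) (lW : W ≤ Γ) {i : GQ}
    (a : i ∈ Γ) (d : i ∈ dec P) (u : IsUnit (χ i - 1)) (tW : ∀ w ∈ W, χ w = 1) (y : Zr Γ T χ P)
    (c : ∀ w ∈ W, vl y w = 0) : y = 0 := ex0 y fun g m => by
  have e := co y (lW (cm i a g m)) (mul_mem m a)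
  rw [inv_mul_cancel_right, co y a m, co y m a, c _ (cm i a g m), tW _ (cm i a g m),
    st y a d] at e
  exact u.mul_right_eq_zero.1 (by linear_combination e)

/-- the decomposition group generates -/
theorem inj' (lW : W ≤ Γ) (sp : dec P ≤ Γ) (gen : ∀ g ∈ Γ, ∃ d ∈ dec P, g * d⁻¹ ∈ W)
    (y : Zr Γ T χ P) (c : ∀ w ∈ W, vl y w = 0) : y = 0 := ex0 y fun g a => by
  obtain ⟨d, d1, d2⟩ := gen g a
  rw [← inv_mul_cancel_right g d, co y (lW d2) (sp d1), c _ d2, st y (sp d1) d1, mul_zero, add_zero]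

/-- **duality**: any lower bound with auxiliary primes descends -/
theorem du (recs : RECS) {ρ : (ZMod pp)⟦X⟧ →+* R} {J : ℕ} (tq : Tq ρ J) {χ χ' : GQ → R} {γ : GQ}
    (hγ : γ ∉ Γ) (G : Ge Γ T (r1 χ)) (G' : Ge Γ T (r1 χ')) (oP : Ov pp P)
    (cy : ∀ g ∈ Γ, χ g * χ' (γ * g * γ⁻¹) = ρ (C (oz pp g))) (oW : IsOpen (W : Set GQ))
    (nW : W.Normal) (lW : W ≤ Γ) (tW : ∀ w ∈ W, χ w = 1 ∧ χ' w = 1 ∧ oz pp w = 1)
    (ij : ∀ y : Zr Γ T χ' P, (∀ w ∈ W, vl y w = 0) → y = 0) (fin' : Finite (Zr Γ T χ' P))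
    (f0 : Finite (Zr Γ T χ P)) (Y : Set (Zr Γ T χ' P)) (hY : ∀ y ∈ Y, ∀ l ∈ T, l ≠ pp → ∀ Q,
      Ov l Q → ∃ m : R, ∀ g ∈ Γ, g ∈ dec Q → vl y g = (χ' g - 1) * m) (n : ℕ)
    (ct : ∀ L : Finset ℕ, (∀ l ∈ L, l ∉ T ∧ l.Prime ∧ pp ∣ l - 1 ∧ ∀ Q, Ov l Q → dec Q ≤ W) →
      n * Nat.card R ^ (2 * L.card) ≤ Nat.card (Zr Γ (T ∪ L) χ P)) :
    n * Nat.card Y ≤ Nat.card (Zr Γ T χ P) := by
  classical
  have N : Γ.Normal := Subgroup.normal_of_index_eq_two G.idx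
  have out : ∀ t ∉ Γ, t * γ⁻¹ ∈ Γ ∧ γ⁻¹ * t⁻¹ ∈ Γ := fun t m => by
    simp [Subgroup.mul_mem_iff_of_index_two G.idx, m, hγ]
  have cn : Continuous fun g : GQ => γ * g * γ⁻¹ := by fun_prop
  have := Fintype.ofFinite (Zr Γ T χ' P)
  obtain ⟨L, x, x1, x2⟩ := pick (fun (y : Zr Γ T χ' P) l (x : Ideal (𝓞 Qb) × GQ) =>
    l ∉ T ∧ Gs W l x.1 x.2 ∧ vl y (γ * x.2 * γ⁻¹) ≠ 0) (Finset.univ.erase 0) fun y m E => by
    obtain ⟨w, w1, w2⟩ : ∃ w ∈ W, vl y w ≠ 0 := by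
      by_contra! c
      exact Finset.ne_of_mem_erase m (ij y c)
    obtain ⟨V, oV, hV⟩ := lc y
    obtain ⟨l, a, Q, φ, b, c⟩ := ex_gs oW nW (fun w m => (tW w m).2.2)
      (O := W ∩ {g | w⁻¹ * (γ * g * γ⁻¹) ∈ V}) (g := γ⁻¹ * w * γ⁻¹⁻¹)
      (oW.inter (oV.preimage (continuous_const.mul cn)))
      ⟨nW.conj_mem _ w1 _, by simp [mul_assoc, one_mem]⟩ Set.inter_subset_left (E ∪ T)
    rw [Finset.mem_union, not_or] at a
    refine ⟨l, a.1, (Q, φ), a.2, c, ?_⟩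
    rwa [← mul_inv_cancel_left w (γ * φ * γ⁻¹), co y (lW w1)
      (lW (mul_mem (inv_mem w1) (nW.conj_mem _ b.1 _))), hV _ b.2, mul_zero, add_zero]
  have xT : ∀ l ∈ L, l ∉ T := fun l m => (x1 l m).elim fun _ h => h.1
  have xG : ∀ l ∈ L, Gs W l (x l).1 (x l).2 := fun l m => (x1 l m).elim fun _ h => h.2.1
  let c (e : Bool) : GQ := bif e then γ else 1
  let Pl (i : L × Bool) := c i.2 • (x i.1).1
  have o (i : L × Bool) : Ov i.1 (Pl i) := ov_sm (xG _ i.1.2).ov _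
  have ne (i : L × Bool) : i.1.1 ≠ pp := fun e => xT _ i.1.2 (e ▸ G.pm)
  have dW (i : L × Bool) : dec (Pl i) ≤ W := (xG _ i.1.2).le _ (o i)
  have pl : ∀ l ∈ L, ∀ Q, Ov l Q → ∃ i, ∃ h ∈ Γ, Q = h • Pl i := fun l m Q q => by
    obtain ⟨t, rfl⟩ := P022E.GW.Tg.trans (xG l m).ov q
    by_cases k : t ∈ Γ
    · exact ⟨(⟨l, m⟩, false), t, k, by simp [Pl, c]⟩
    · exact ⟨(⟨l, m⟩, true), _, (out t k).1, by simp [Pl, c, mul_smul]⟩
  choose τ hτ using fun i => ex_gn (o i) (ne i)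
  obtain ⟨w, w1, w2⟩ := recs 1
  let f : Zr Γ (T ∪ L) χ P →+ (L × Bool → R) := .mk' (fun z i => vl z (τ i)) fun _ _ => rfl
  let f' : Zr Γ T χ' P →+ (L × Bool → R) :=
    .mk' (fun y i => vl y (γ * (c i.2 * (x i.1).2 * (c i.2)⁻¹) * γ⁻¹)) fun _ _ => rfl
  have key : ∀ z, ∀ y ∈ Y, ∑ i, w i.1 (τ i) • (f z i * f' y i) = 0 := fun z y hy => by
    obtain ⟨V, oV, hV⟩ := lc z
    obtain ⟨V', oV', hV'⟩ := lc y
    refine w2 Γ R R R AddMonoidHom.mul (fun g => .mulLeft (χ g))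
      (fun g => .mulLeft (χ' (γ * g * γ⁻¹))) (vl z) (fun g => vl y (γ * g * γ⁻¹)) (L × Bool)
      (fun i => i.1) Pl (fun i => c i.2 * (x i.1).2 * (c i.2)⁻¹) τ G.opn G.idx G.cx
      (fun x => (pow_one pp).symm ▸ Or.pz ρ x)
      ⟨fun g a h b x => ?_, fun g a h b => co z a b, W ⊓ V, oW.inter oV, fun g _ m =>
        ⟨fun x => by simp [(tW g m.1).1], hV g m.2⟩⟩
      ⟨fun g a h b x => ?_, fun g a h b => ?_, W ⊓ V'.comap (MulAut.conj γ).toMonoidHom,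
        oW.inter (oV'.preimage cn), fun g _ m =>
        ⟨fun x => by simp [(tW _ (nW.conj_mem _ m.1 γ)).2.1], hV' _ m.2⟩⟩
      (fun g a k e x y => ?_) (fun i => ⟨o i, ne i, ?_, fb_sm (xG _ i.1.2).fb _, hτ i,
        (dW i).trans lW, fun g m => ⟨fun x => by simp [(tW g (dW i m)).1], fun x => by
          simp [(tW _ (nW.conj_mem _ (dW i m) γ)).2.1]⟩,
        fun g m => un y ⟨_, xT _ i.1.2, _, ov_sm (o i) γ, in_sm m⟩⟩) ?_ fun p Q q n => ?_
    · simp [mu G a b, mul_assoc]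
    · rw [← conj_mul, mu G' (N.conj_mem _ a γ) (N.conj_mem _ b γ)]
      exact mul_assoc _ _ _
    · rw [← conj_mul]
      exact co y (N.conj_mem _ a γ) (N.conj_mem _ b γ)
    · have : oz pp g = k :=
        pw_inj (by rw [← oz_spec, pw_nat]; exact e _ ((pow_one pp).symm ▸ zt_pow))
      have t := cy g a
      rw [this, map_natCast, map_natCast] at t
      show χ g * x * (χ' _ * y) = k • (x * y)
      rw [nsmul_eq_mul, ← t]
      ring
    · exact (pow_one pp).symm ▸ (xG _ i.1.2).md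
    · rintro ⟨⟨l, m⟩, e⟩ ⟨⟨l', m'⟩, e'⟩ g a k
      obtain rfl : l = l' := ov_eq (ov_sm (o (⟨l, m⟩, e)) g) (k ▸ o (⟨l', m'⟩, e'))
      have d : (c e')⁻¹ * g * c e ∈ Γ := lW ((xG l m).le _ (xG l m).ov (stab (by
        rw [mul_smul, mul_smul, inv_smul_eq_iff]
        exact k.symm)))
      cases e <;> cases e' <;>
        simp [c, Subgroup.mul_mem_iff_of_index_two G.idx, a, hγ] at d ⊢
    have pL : p ∉ L := fun m => by
      obtain ⟨i, h, a, e⟩ := pl p m Q q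
      exact n i h a e
    by_cases p3 : p = pp
    · subst p3
      obtain ⟨t, rfl⟩ := P022E.GW.Tg.trans oP q
      by_cases k : t ∈ Γ
      · exact ⟨t⁻¹, inv_mem k, .inl ⟨0, fun g m => by
          simpa using st z m.1 (inv_smul_smul t P ▸ m.2)⟩⟩
      · refine ⟨_, (out t k).2, .inr (.inl ⟨0, fun g m => ?_⟩)⟩
        simpa using st y (N.conj_mem _ m.1 γ) (by simpa [mul_smul] using dec_sm (t := γ) m.2)
    refine ⟨1, one_mem _, .inr ?_⟩
    rw [one_smul]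
    by_cases pT : p ∈ T
    · obtain ⟨m, hm⟩ := hY y hy p pT p3 _ (ov_sm q γ)
      exact .inl ⟨m, fun g k => (hm _ (N.conj_mem _ k.1 γ) (dec_sm k.2)).trans (sub_one_mul _ _)⟩
    · exact .inr ⟨p3, fun g k => ⟨fun x => by simp [ur G k.1 ⟨p, pT, Q, q, k.2⟩],
        un z ⟨p, by simp [pT, pL], Q, q, k.2⟩⟩, fun g k => ⟨fun x => by
          simp [ur G' (N.conj_mem _ k.1 γ) ⟨p, pT, _, ov_sm q γ, in_sm k.2⟩],
        un y ⟨p, pT, _, ov_sm q γ, in_sm k.2⟩⟩⟩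
  let B : AddSubgroup (L × Bool → R) := ⨅ z, (AddMonoidHom.mk'
    (fun y : L × Bool → R => ∑ i, w i.1 (τ i) • (f z i * y i)) fun a b => by
      simp only [Pi.add_apply, mul_add, smul_add, Finset.sum_add_distrib]).ker
  obtain ⟨fR, h3⟩ := Or.ort tq (fun i => w i.1 (τ i)) f.range B
    (fun i => w1 _ _ _ (o i) (ne i) (hτ i)) (by
      rintro _ ⟨z, rfl⟩ y m
      exact AddSubgroup.mem_iInf.1 m z)
  have h4 := Nat.card_le_card_of_injective (fun y : Y =>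
    (⟨f' y, AddSubgroup.mem_iInf.2 fun z => key z y y.2⟩ : B)) fun y y' e => Subtype.ext (by
      by_contra n
      obtain ⟨l, m, -, -, k⟩ := x2 (y.1 - y'.1) (by simpa [sub_eq_zero] using n)
      have := congrFun ((map_sub f' y.1 y'.1).trans (sub_eq_zero.2 (congrArg Subtype.val e)))
        (⟨l, m⟩, false)
      exact k (by simpa [f', c] using this))
  have h1 := ct L fun l m => ⟨xT l m, (xG l m).ov.1, (xG l m).md, (xG l m).le⟩
  have h2 := Nat.card_le_card_of_injective (fun z : f.ker => (⟨z.1.1, z.1.2.1, z.1.2.2.1,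
    z.1.2.2.2.1, fun g ⟨l, n, Q, q, k⟩ => funext fun j => Subsingleton.elim 0 j ▸ (by
      by_cases m : l ∈ L
      · obtain ⟨i, h, a, rfl⟩ := pl l m Q q
        have k' := P022E.GW.Tg.inert_conj k
        have := cj z.1 (lW (dW i (in_dec k'))) a (tW _ (nW.conj_mem _ (dW i (in_dec k')) h)).1
        rw [tm ρ z.1 (o i) (ne i) (hτ i) (fun g m => ⟨lW (dW i m), (tW g (dW i m)).1⟩)
          (congrFun z.2 i) k'] at this
        simpa [mul_assoc] using this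
      · exact un z.1 ⟨l, by simpa [m] using n, Q, q, k⟩), z.1.2.2.2.2.2⟩ : Zr Γ T χ P))
    fun z z' e => Subtype.ext (Subtype.ext (congrArg (fun u : Zr Γ T χ P => u.1) e))
  rw [f.ker.card_eq_card_quotient_mul_card_addSubgroup,
    Nat.card_congr (QuotientAddGroup.quotientKerEquivRange f).toEquiv] at h1
  rw [Fintype.card_prod, Fintype.card_coe, Fintype.card_bool, mul_comm L.card] at h3
  refine Nat.le_of_mul_le_mul_left (h1.trans' ?_ |>.trans (Nat.mul_le_mul_left _ h2))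
    (Nat.card_pos (α := f.range))
  rw [mul_left_comm]
  exact Nat.mul_le_mul_left _ ((Nat.mul_le_mul_left _ h4).trans h3)

end Vale.Agent.P014Z.Ra.Du
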