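import Vale.Agent.P014Z.Ml.Wd
import Vale.Agent.P014Y.F.St
import Vale.Agent.P014Y.Mu.St1

/-!
# P014Z, block Ra: the two rank one groups at an odd prime (words and rows, helper58)
-/

set_option autoImplicit false
set_option linter.all false

open NumberField Matrix
open scoped Pointwise PowerSeries Classical

noncomputable section

namespace Vale.Agent.P014Z.Ra

open Vale.Agent.P022 Vale.Agent.P014U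
open Vale.Agent.P027M.S (Inert)
open Vale.Agent.P022D.W (dec)
open Vale.Agent.P022E.GW (Ov Fb)
open Vale.Agent.P022K.G2 (oz In St ip)

export Vale.Agent.P014Y.F (Gd)
export Vale.Agent.P014Z.Ml (Z0 r1 Tq tt ch tw r2 Zr Rt Nw Tri MUL)

variable [Pp]

section words

variable {R : Type} [CommRing R] (ρ : (ZMod pp)⟦X⟧ →+* R)

/-- the cocycles which are coboundaries at the tame places above `T` -/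
def Y0 (Γ : Subgroup GQ) (T : Finset ℕ) (χ : GQ → R) (P : Ideal (𝓞 Qb)) : Set (Zr Γ T χ P) :=
  {z | ∀ l ∈ T, l ≠ pp → ∀ Q, Ov l Q → ∃ m : R, ∀ g ∈ dec Q, z.1.1 g 0 = (χ g - 1) * m}

/-- `T ^ i` kills the cocycles -/
def Ki (Γ : Subgroup GQ) (T : Finset ℕ) (χ : GQ → R) (P : Ideal (𝓞 Qb)) (i : ℕ) : Prop :=
  ∀ z : Zr Γ T χ P, ∀ g, tt ρ ^ i * z.1.1 g 0 = 0

/-- the residual character on `D` is `α` -/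
def Rs (D : Subgroup GQ) (χ : GQ → R) (α : GQ → ZMod pp) : Prop :=
  ∀ g ∈ D, tt ρ ∣ χ g - ρ (PowerSeries.C (α g))

/-- residually cyclotomic at `Q` -/
abbrev Rw (χ : GQ → R) (Q : Ideal (𝓞 Qb)) : Prop := Rs ρ (dec Q) χ (oz pp)

/-- non trivial modulo `T ^ 2` at `Q` -/
def Mv (χ : GQ → R) (Q : Ideal (𝓞 Qb)) : Prop := ∃ d ∈ dec Q, χ d - 1 ∣ tt ρ

/-- an anticyclotomic deformation of the trivial character -/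
structure Ba (Γ : Subgroup GQ) (T : Finset ℕ) (χ : GQ → R) : Prop where
  gd : Gd Γ T (r1 χ)
  res : ∀ g ∈ Γ, tt ρ ∣ χ g - 1
  neg : ∀ γ ∉ Γ, ∀ g ∈ Γ, χ g * χ (γ * g * γ⁻¹) = 1
  loc : ∀ l ∈ T, ∀ Q, Ov l Q → dec Q ≤ Γ ∧ Mv ρ χ Q

end words

/-- a residual character of the rational numbers, unramified outside `T` -/
structure Rc (T : Finset ℕ) (α : GQ → ZMod pp) : Prop where
  one : α 1 = 1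
  mul : ∀ g h, α (g * h) = α g * α h
  lc : ∃ W : Subgroup GQ, IsOpen (W : Set GQ) ∧ ∀ w ∈ W, α w = 1
  unr : ∀ g ∈ In (T : Set ℕ), α g = 1

/-- the tame primes of `T` at which `α` is trivial -/
def tv (T : Finset ℕ) (α : GQ → ZMod pp) : Finset ℕ :=
  T.filter fun l => l ≠ pp ∧ ∀ Q, Ov l Q → ∀ g ∈ dec Q, α g = 1

/-! ### rows -/

/-- finiteness -/
def FIN : Prop := ∀ (R : Type) [CommRing R] (ρ : (ZMod pp)⟦X⟧ →+* R) (J : ℕ), Tq ρ J →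
  ∀ (Γ : Subgroup GQ) (T : Finset ℕ) (χ : GQ → R) P, Gd Γ T (r1 χ) → Finite (Zr Γ T χ P)

/-- bounded exponent gives bounded order -/
def LEX : Prop := ∀ (Γ : Subgroup GQ) (S : Finset ℕ) (α : GQ → ZMod pp), Gd Γ S (r1 α) → ∀ k : ℕ,
  ∃ C : ℕ, ∀ (T : Finset ℕ) (R : Type) [CommRing R] (ρ : (ZMod pp)⟦X⟧ →+* R) (J : ℕ) (χ : GQ → R) P,
  T.card ≤ k → Tq ρ J → Gd Γ (S ∪ T) (r1 χ) → Rs ρ Γ χ α →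
  Finite (Zr Γ (S ∪ T) χ P) ∧
  (∀ i, Ki ρ Γ (S ∪ T) χ P i → Nat.card (Zr Γ (S ∪ T) χ P) ≤ pp ^ (C * i)) ∧
  (∀ i, Nat.card (Y0 Γ (S ∪ T) χ P) ≤ pp ^ i → ∀ z ∈ Y0 Γ (S ∪ T) χ P, ∀ g,
    tt ρ ^ i * z.1.1 g 0 = 0) ∧
  (Ki ρ Γ (S ∪ T) χ P 1 → ∀ (R' : Type) [CommRing R'] (ρ' : (ZMod pp)⟦X⟧ →+* R') (J' : ℕ)
    (χ' : GQ → R'), Tq ρ' J' → 0 < J' → Gd Γ (S ∪ T) (r1 χ') → Rs ρ' Γ χ' α →
    Nat.card (Zr Γ (S ∪ T) χ P) ≤ Nat.card (Zr Γ (S ∪ T) χ' P))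

/-- the local groups of a residually trivial character are killed by `T ^ 2` -/
def LO1 : Prop := ∀ (R : Type) [CommRing R] (ρ : (ZMod pp)⟦X⟧ →+* R) (J : ℕ), Tq ρ J →
  ∀ (Γ : Subgroup GQ) (T : Finset ℕ) (χ : GQ → R) P, Gd Γ T (r1 χ) →
  (∀ l ∈ T, l ≠ pp → ∀ Q, Ov l Q → dec Q ≤ Γ ∧ Rt ρ χ Q ∧ Mv ρ χ Q) →
  ∀ z : Zr Γ T χ P, tt ρ ^ 2 • z ∈ Y0 Γ T χ P

/-- **the local indices**: only the residually cyclotomic places count -/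
def LOI : Prop := ∀ (R : Type) [CommRing R] (ρ : (ZMod pp)⟦X⟧ →+* R) (J : ℕ), Tq ρ J → 2 ≤ J →
  ∀ (Γ : Subgroup GQ) (T U : Finset ℕ) (χ : GQ → R) P, Gd Γ T (r1 χ) →
  (∀ l ∈ T, l ≠ pp → ∀ Q, Ov l Q →
    dec Q ≤ Γ ∧ (Rt ρ χ Q → Mv ρ χ Q) ∧ (Rw ρ χ Q → l ∈ U)) →
  Ki ρ Γ T χ P 1 → Finite (Zr Γ T χ P) →
  Nat.card (Zr Γ T χ P) ≤ pp ^ (2 * U.card) * Nat.card (Y0 Γ T χ P)

/-- **the count**: the local relations are divisible by `T` at `U` and vanish at `L` -/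
def DU1 : Prop := ∀ (R : Type) [CommRing R] (ρ : (ZMod pp)⟦X⟧ →+* R) (J : ℕ), Tq ρ J → 0 < J →
  ∀ (Γ : Subgroup GQ) (T U L : Finset ℕ) (χ : GQ → R) P, Gd Γ T (r1 χ) → Ov pp P → dec P ≤ Γ →
  Disjoint U L → (∀ l ∈ U ∪ L, l ∈ T ∧ l ≠ pp ∧ ∀ Q, Ov l Q → dec Q ≤ Γ ∧ Rw ρ χ Q) →
  (∀ l ∈ L, l % pp = 1 ∧ ∀ Q, Ov l Q → ∀ g ∈ dec Q, χ g = 1) →
  (Nw ρ Γ χ ∨ ∃ l ∈ T, l ≠ pp ∧ l ∉ U ∪ L ∧ ∃ Q, Ov l Q ∧ dec Q ≤ Γ ∧ Rt ρ χ Q) →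
  pp ^ (2 * U.card) * Nat.card R ^ (2 * L.card) ≤ Nat.card (Zr Γ T χ P)

/-- orthogonal subgroups -/
def ORT : Prop := ∀ (R : Type) [CommRing R] (ρ : (ZMod pp)⟦X⟧ →+* R) (J : ℕ), Tq ρ J →
  ∀ (ι : Type) [Fintype ι] (w : ι → ℕ) (A B : AddSubgroup (ι → R)), (∀ i, ¬ pp ∣ w i) →
  (∀ x ∈ A, ∀ y ∈ B, ∑ i, w i • (x i * y i) = 0) →
  Finite R ∧ Nat.card A * Nat.card B ≤ Nat.card R ^ Fintype.card ι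

/-- **duality** -/
def DU : Prop := ∀ (R : Type) [CommRing R] (ρ : (ZMod pp)⟦X⟧ →+* R) (J : ℕ), Tq ρ J → 0 < J →
  ∀ (Γ W : Subgroup GQ) (T U : Finset ℕ) (χ χ' : GQ → R) P, ∀ γ ∉ Γ, Gd Γ T (r1 χ) →
  Gd Γ T (r1 χ') → Ov pp P → (∀ l ∈ T, ∀ Q, Ov l Q → dec Q ≤ Γ) →
  (∀ g ∈ Γ, χ g * χ' (γ * g * γ⁻¹) = ρ (PowerSeries.C (oz pp g))) →
  IsOpen (W : Set GQ) → W.Normal → W ≤ Γ → (∀ w ∈ W, χ w = 1 ∧ χ' w = 1 ∧ oz pp w = 1) →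
  (∀ y : Zr Γ T χ' P, (∀ w ∈ W, y.1.1 w 0 = 0) → y = 0) →
  (∀ l ∈ U, l ∈ T ∧ l ≠ pp ∧ ∀ Q, Ov l Q → Rw ρ χ Q) →
  (Nw ρ Γ χ ∨ ∃ l ∈ T, l ≠ pp ∧ l ∉ U ∧ ∃ Q, Ov l Q ∧ Rt ρ χ Q) →
  Finite (Zr Γ T χ' P) → (∀ L : Finset ℕ, (∀ l ∈ L, l.Prime) → Finite (Zr Γ (T ∪ L) χ P)) →
  pp ^ (2 * U.card) * Nat.card (Y0 Γ T χ' P) ≤ Nat.card (Zr Γ T χ P)

/-- the character of a layer -/
def BAS : Prop := ∀ (Γ : Subgroup GQ) (S : Finset ℕ) (N c n : ℕ) (e : GQ → ZMod n),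
  IsOpen (Γ : Set GQ) → Γ.index = 2 → (∀ w, Γ ⊓ St (ip w) = ⊥) → 2 ∈ S → pp ∈ S →
  (∀ l ∈ S, l.Prime) → 0 < N → P014Y.Mu.Ly Γ S N c (fun g => (e g).val) →
  (∀ γ ∉ Γ, ∀ g ∈ Γ, pp ^ N ∣ (e g).val + (e (γ * g * γ⁻¹)).val) →
  ∀ (R : Type) [CommRing R] (ρ : (ZMod pp)⟦X⟧ →+* R) (J : ℕ), Tq ρ J → J ≤ pp ^ N →
  Ba ρ Γ (S ∪ c.primeFactors) (ch ρ e) ∧
    ∀ P, Ov pp P → ∀ g ∈ Γ, ∃ d ∈ dec P, ch ρ e d = ch ρ e g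

/-- the twists -/
def TWI : Prop := ∀ (R : Type) [CommRing R] (ρ : (ZMod pp)⟦X⟧ →+* R) (Γ : Subgroup GQ)
  (T : Finset ℕ) (χ : GQ → R) (α : GQ → ZMod pp), Ba ρ Γ T χ → Rc T α →
  Gd Γ T (r1 (tw ρ α χ)) ∧ Rs ρ Γ (tw ρ α χ) α

/-- **the export**: `α α' = ω`, `α'` is not trivial at `P` -/
def ALG : Prop := ∀ (R : Type) [CommRing R] (ρ : (ZMod pp)⟦X⟧ →+* R) (J : ℕ), Tq ρ J → 2 ≤ J →
  ∀ (Γ : Subgroup GQ) (T : Finset ℕ) (χ : GQ → R) (α α' : GQ → ZMod pp) P, Ba ρ Γ T χ → Rc T α →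
  Rc T α' → (∀ g, α g * α' g = oz pp g) → Ov pp P → (∃ d ∈ dec P, α' d ≠ 1) →
  Ki ρ Γ T (tw ρ α' χ) P 1 →
  pp ^ (2 * (tv T α').card) * Nat.card (Zr Γ T (tw ρ α' χ) P) ≤
    pp ^ (2 * (tv T α).card) * Nat.card (Zr Γ T (tw ρ α χ) P)

/-- **the trivial character**: a bound on the cyclotomic side bounds the other side -/
def ALB : Prop := ∀ (R : Type) [CommRing R] (ρ : (ZMod pp)⟦X⟧ →+* R) (J : ℕ), Tq ρ J →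
  ∀ (Γ : Subgroup GQ) (T : Finset ℕ) (χ : GQ → R) P, Ba ρ Γ T χ → Ov pp P →
  (∀ g ∈ Γ, ∃ d ∈ dec P, χ d = χ g) → (∃ q ∈ T, q % pp = 1) →
  ∀ B, Nat.card (Zr Γ T (tw ρ (oz pp) χ) P) ≤ pp ^ B → Ki ρ Γ T χ P (B + 2)

/-- **rank two**: an extension of `α` by `α'` or of `α'` by `α` -/
def ALM : Prop := ∀ (R : Type) [CommRing R] (ρ : (ZMod pp)⟦X⟧ →+* R) (J : ℕ), Tq ρ J → 2 ≤ J →
  ∀ (Γ : Subgroup GQ) (T : Finset ℕ) (χ : GQ → R) (α α' : GQ → ZMod pp)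
    (b : GQ → Matrix (Fin 2) (Fin 2) (ZMod pp)) P, Ba ρ Γ T χ → Rc T α →
  Rc T α' → (∀ g, α g * α' g = oz pp g) → Ov pp P → (∃ d ∈ dec P, α' d ≠ 1) →
  Gd Γ T b → (Tri Γ b α α' ∨ Tri Γ b α' α) →
  ((∃ g ∈ Γ, α g ≠ 1) ∨ ∃ q ∈ tv T α, q % pp = 1) → Finite (Z0 Γ T (r2 ρ χ b) P) ∧
  Nat.card (Z0 Γ T (r2 ρ χ b) P) ≤
    Nat.card (Zr Γ T (tw ρ α χ) P) * Nat.card (Zr Γ T (tw ρ α' χ) P) ∧
  (Ki ρ Γ T (tw ρ α' χ) P 1 → ∀ B, 2 * B ≤ J →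
    Nat.card (Zr Γ T (tw ρ α χ) P) * Nat.card (Zr Γ T (tw ρ α' χ) P) ≤ pp ^ B →
    pp ^ (2 * (tv T α').card) * Nat.card (Zr Γ T (tw ρ α' χ) P) ^ 2 ≤
      pp ^ (2 * (tv T α).card) * Nat.card (Z0 Γ T (r2 ρ χ b) P))

end Vale.Agent.P014Z.Ra
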