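import Vale.Agent.P014Z.Ml.Du0
import Vale.Agent.P014Z.Ra.St

/-!
# P014Z, block Ra: the row `DU1` (helper93)
-/

set_option autoImplicit false
set_option linter.all false

open NumberField Matrix
open scoped Pointwise PowerSeries Classical

noncomputable section

namespace Vale.Agent.P014Z.Ra

open Vale.Agent.P022 Vale.Agent.P022K Vale.Agent.P014U
open Vale.Agent.P027M.S (Inert)
open Vale.Agent.P022D.W (dec inP_le_dec phi_mem)
open Vale.Agent.P022E.GW (Ov Fb)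
open Vale.Agent.P022K.G2 (oz zt zt_prim oz_spec mem_Gz inert_gz)

variable [Pp] {R : Type} [CommRing R] {Γ : Subgroup GQ} {T : Finset ℕ} {l : ℕ}
  {P : Ideal (𝓞 Qb)} {φ : GQ} {ρ : (ZMod pp)⟦X⟧ →+* R} {J : ℕ}

namespace D1

theorem oz_fb (o : Ov l P) (n : l ≠ pp) (f : Fb l P φ) : oz pp φ = l := by
  have e := (oz_spec φ).symm.trans (P004F.Lt.root o (fun c => n
    ((Nat.prime_dvd_prime_iff_eq o.1 pp_prime).1 c)) (zt_prim pp).pow_eq_one f)
  rw [((zt_prim pp).isOfFinOrder pp_ne).pow_eq_pow_iff_modEq, ← (zt_prim pp).eq_orderOf,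
    ← ZMod.natCast_eq_natCast_iff, ZMod.natCast_zmod_val] at e
  exact e

theorem oz_in (o : Ov l P) (n : l ≠ pp) (i : Inert P φ) : oz pp φ = 1 := mem_Gz.1 (inert_gz o n i)

/-- the residue map -/
theorem ex_pi (h : Tq ρ J) (J0 : 0 < J) : Finite R ∧ IsLocalRing R ∧ (pp : R) = 0 ∧
    ∃ π : R →+* ZMod pp, (∀ c, π (ρ (PowerSeries.C c)) = c) ∧ (∀ x, π x = 0 ↔ tt ρ ∣ x) ∧
      pp * Nat.card (RingHom.ker π) = Nat.card R ∧ ∀ x, tt ρ ∣ x → IsNilpotent x := by
  let π : R →+* ZMod pp := ρ.liftOfSurjective h.sur ⟨PowerSeries.constantCoeff, fun x hx =>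
    PowerSeries.X_dvd_iff.1 ((dvd_pow_self _ J0.ne').trans ((h.ker x).1 hx))⟩
  have e : ∀ x, π (ρ x) = PowerSeries.constantCoeff x := ρ.liftOfSurjective_comp_apply _ _
  have := π.domain_nontrivial
  refine ⟨.of_equiv _ (P004F.Alg.ps_equiv ρ h.sur h.ker).some.symm, .of_surjective' ρ h.sur,
    by rw [← map_natCast (ρ.comp PowerSeries.C), ZMod.natCast_self, map_zero], π,
    fun c => (e _).trans (PowerSeries.constantCoeff_C c), fun x => ⟨fun k => ?_, fun ⟨y, k⟩ => by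
      rw [k, map_mul, e, PowerSeries.constantCoeff_X, zero_mul]⟩, ?_, fun x ⟨y, k⟩ =>
    ⟨J, by rw [k, mul_pow, ← map_pow, (h.ker _).2 dvd_rfl, zero_mul]⟩⟩
  · obtain ⟨y, rfl⟩ := h.sur x
    exact map_dvd ρ (PowerSeries.X_dvd_iff.2 ((e y).symm.trans k))
  · have := π.toAddMonoidHom.ker.card_mul_index
    rwa [AddSubgroup.index_ker, AddMonoidHom.range_eq_top.2 (ZMod.ringHom_surjective π),
      AddSubgroup.card_top, Nat.card_zmod, mul_comm] at this

/-- two places above each split prime -/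
theorem two (idx : Γ.index = 2) (U : Finset ℕ)
    (h : ∀ l ∈ U, l.Prime ∧ ∀ Q, Ov l Q → dec Q ≤ Γ) : ∃ p : U × Bool → Ideal (𝓞 Qb),
    (∀ i, Ov i.1 (p i)) ∧ ∀ i j, ∀ g ∈ Γ, p j = g • p i → i = j := by
  obtain ⟨c, hc⟩ : ∃ c, c ∉ Γ := by
    by_contra! k
    rw [(Subgroup.eq_top_iff' Γ).2 k, Subgroup.index_top] at idx
    omega
  choose P0 o0 using fun l : U => GW.Pl.ex_ov (h l l.2).1
  have o : ∀ i : U × Bool, Ov i.1 (cond i.2 (c • P0 i.1) (P0 i.1)) := by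
    rintro ⟨l, _ | _⟩; exacts [o0 l, GW.ov_smul (o0 l) c]
  refine ⟨_, o, ?_⟩
  rintro ⟨l, b⟩ ⟨l', b'⟩ g m e
  obtain rfl : l = l' := Subtype.ext (GW.Pl.ov_uniq (GW.ov_smul (o (l, b)) g) (e ▸ o (l', b')))
  have le := (h l l.2).2 _ (o0 l)
  rcases b with _ | _ <;> rcases b' with _ | _
  · rfl
  · exact (hc ((Γ.mul_mem_cancel_left (inv_mem m)).1 (le ((GW.Pl.dec_iff _ _).2 (by
      rw [mul_smul, inv_smul_eq_iff]; exact e))))).elim
  · exact (hc ((Γ.mul_mem_cancel_left m).1 (le ((GW.Pl.dec_iff _ _).2 (by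
      rw [mul_smul]; exact e.symm))))).elim
  · rfl

end D1

open D1 in
theorem du1 : DU1 := by
  intro R _ ρ J h J0 Γ T U L χ P G oP dP dj hU hL rel
  obtain ⟨_, _, h2, π, πc, πt, πk, nil⟩ := ex_pi h J0
  obtain ⟨p, o, un⟩ := two G.idx (U ∪ L) fun l m =>
    ⟨G.pr l (hU l m).1, fun Q a => ((hU l m).2.2 Q a).1⟩
  have n := fun i : (U ∪ L : Finset ℕ) × Bool => (hU i.1 i.1.2).2.1
  have k := fun i : (U ∪ L : Finset ℕ) × Bool => (hU i.1 i.1.2).2.2 _ (o i)
  have c1 := (Ml.D0.du0 π h2 (.of G.toGd G.pm) oP dP (fun i => i.1.1) p (fun i => (hU _ i.1.2).1) n o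
    (fun i => (k i).1) un (fun i => if i.1.1 ∈ L then ⊥ else RingHom.ker π)
    (fun i => if i.1.1 ∈ L then Nat.card R else pp) (fun i => ?_) (fun i g m => ?_)
    (fun i g f => ?_)
    (rel.imp (fun ⟨g, m, a⟩ => ⟨g, m, fun e => a ((πt _).1 (by rw [map_sub, πc, e, sub_self]))⟩)
      fun ⟨l, a, b, c, Q, d, e, f⟩ => ⟨l, a, b, Q, d, e, fun g m => sub_eq_zero.1 (by
        rw [← map_one π, ← map_sub]; exact (πt _).2 (f g m)), fun i g _ q =>
        c (GW.Pl.ov_uniq (GW.ov_smul (o i) g) (q ▸ d) ▸ i.1.2)⟩)).2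
  · rw [Fintype.prod_prod_type, (Finset.prod_coe_sort (U ∪ L) fun l => ∏ _ : Bool,
      if l ∈ L then Nat.card R else pp :), Finset.prod_union dj, Finset.prod_congr rfl fun l a => by
        rw [if_neg (Finset.disjoint_left.1 dj a)], Finset.prod_congr (s₁ := L) rfl fun l a => by
        rw [if_pos a]] at c1
    simpa only [Finset.prod_const, Finset.card_univ, Fintype.card_bool, ← pow_mul _ 2] using c1
  · split_ifs
    exacts [by simp, πk.le]
  · have b := (k i).2 g (inP_le_dec m)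
    rw [oz_in (o i) (n i) m, map_one, map_one] at b
    refine ⟨?_, nil _ b⟩
    split_ifs with a
    exacts [sub_eq_zero.2 ((hL _ a).2 _ (o i) g (inP_le_dec m)), (πt _).2 b]
  · have m := phi_mem (o i).1 (o i).2.1 f
    have b := (k i).2 g m
    rw [oz_fb (o i) (n i) f, map_natCast, map_natCast] at b
    split_ifs with a
    · rw [(hL _ a).2 _ (o i) g m, ← Nat.mod_add_div i.1.1 pp, (hL _ a).1, Nat.cast_add, Nat.cast_mul,
        h2]
      simp
    · exact (πt _).2 b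

end Vale.Agent.P014Z.Ra
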