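import Vale.Agent.P014Z.Ml.Wd
import Vale.Agent.P014Y.Rd.Lex

/-!
# P014Z: bounded exponent gives bounded order, the kit (helper27)
-/

set_option autoImplicit false
set_option linter.all false

open NumberField PowerSeries

noncomputable section

namespace Vale.Agent.P014Z.Ra

open Vale.Agent.P022 Vale.Agent.P014U
open P004R.Lx (mem_Z0)
open P014Y.Rd.Lx (ker_pow)
open Ml

namespace Lx

variable [Pp] {R : Type} [CommRing R] {ρ : (ZMod pp)⟦X⟧ →+* R} {J : ℕ} {Γ : Subgroup GQ} {T : Finset ℕ}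
  {χ : GQ → R} {α : GQ → ZMod pp} {P : Ideal (𝓞 Qb)}

/-- the socle -/
def so (ρ : (ZMod pp)⟦X⟧ →+* R) (J : ℕ) (c : ZMod pp) : R := ρ (X ^ (J - 1) * C c)

theorem so_add (a b : ZMod pp) : so ρ J (a + b) = so ρ J a + so ρ J b := by
  simp only [so, map_add, mul_add]

theorem so_zero : so ρ J 0 = 0 := by simp [so]

theorem dv (l : 0 < J) (q : (ZMod pp)⟦X⟧) : X ^ J ∣ X ^ (J - 1) * q ↔ X ∣ q := by
  conv_lhs => rw [← Nat.sub_add_cancel l, pow_succ, Nat.add_sub_cancel]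
  exact mul_dvd_mul_iff_left (pow_ne_zero _ X_ne_zero)

theorem so_inj (h : Tq ρ J) (l : 0 < J) {a b : ZMod pp} : so ρ J a = so ρ J b ↔ a = b := by
  rw [so, so, ← sub_eq_zero, ← map_sub, ← mul_sub, ← map_sub, h.ker, dv l, X_dvd_iff,
    constantCoeff_C, sub_eq_zero]

theorem so_eq (h : Tq ρ J) (l : 0 < J) {a : ZMod pp} : so ρ J a = 0 ↔ a = 0 := by
  rw [← so_zero (ρ := ρ) (J := J), so_inj h l]

theorem t_so (h : Tq ρ J) (l : 0 < J) (a : ZMod pp) : tt ρ * so ρ J a = 0 := by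
  rw [so, ← map_mul, h.ker, mul_left_comm, dv l]
  exact dvd_mul_right _ _

theorem mul_so (h : Tq ρ J) (l : 0 < J) {x : R} {a : ZMod pp} (d : tt ρ ∣ x - ρ (C a)) (c : ZMod pp) :
    x * so ρ J c = so ρ J (a * c) := by
  obtain ⟨y, e⟩ := d
  rw [sub_eq_iff_eq_add.1 e, add_mul, mul_comm _ y, mul_assoc, t_so h l, mul_zero, zero_add, so, so,
    ← map_mul, map_mul C, mul_left_comm]

theorem ex_so (h : Tq ρ J) (l : 0 < J) {x : R} (e : tt ρ * x = 0) : ∃ c, x = so ρ J c := by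
  obtain ⟨p, rfl⟩ := h.sur x
  rw [← map_mul, h.ker, ← Nat.sub_add_cancel l, pow_succ', mul_dvd_mul_iff_left X_ne_zero] at e
  obtain ⟨q, rfl⟩ := e
  refine ⟨constantCoeff q, sub_eq_zero.1 ?_⟩
  rw [so, ← map_sub, ← mul_sub, h.ker, dv l, X_dvd_iff]
  simp

/-- multiplication by the variable -/
def mu (ρ : (ZMod pp)⟦X⟧ →+* R) (Γ : Subgroup GQ) (T : Finset ℕ) (χ : GQ → R) (P : Ideal (𝓞 Qb)) :
    AddMonoid.End (Zr Γ T χ P) := DistribMulAction.toAddMonoidEnd R _ (tt ρ)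

theorem ext {z w : Zr Γ T χ P} (e : ∀ g, z.1.1 g 0 = w.1.1 g 0) : z = w :=
  Subtype.ext (Prod.ext (funext fun g => funext fun i => Subsingleton.elim 0 i ▸ e g)
    (Subsingleton.elim _ _))

theorem mem_pow {i : ℕ} {z : Zr Γ T χ P} :
    z ∈ (mu ρ Γ T χ P ^ i).ker ↔ ∀ g, tt ρ ^ i * z.1.1 g 0 = 0 := by
  rw [mu, ← map_pow]
  exact ⟨fun e g => congrArg (fun y : Zr Γ T χ P => y.1.1 g 0) e, fun e => ext e⟩

theorem down (h : Tq ρ J) (d : ∀ g ∈ Γ, tt ρ ∣ χ g - ρ (C (α g))) :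
    ∃ f : (mu ρ Γ T χ P).ker → Zr Γ T α P, Function.Injective f := by
  rcases J.eq_zero_or_pos with rfl | l
  · refine ⟨fun _ => 0, fun z w _ => Subtype.ext (ext fun g => ?_)⟩
    have : ∀ x : R, x = 0 := fun x => by
      obtain ⟨p, rfl⟩ := h.sur x
      exact (h.ker p).2 (by simp)
    rw [this (z.1.1.1 g 0), this (w.1.1.1 g 0)]
  have : ∀ (z : (mu ρ Γ T χ P).ker) g, ∃ c, z.1.1.1 g 0 = so ρ J c := fun z g =>
    ex_so h l (congrArg (fun y : Zr Γ T χ P => y.1.1 g 0) z.2)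
  choose q hq using this
  refine ⟨fun z => ⟨(fun g _ => q z g, 0), ?_⟩, fun z w m => Subtype.ext (ext fun g => ?_)⟩
  · obtain ⟨a1, a2, ⟨W, o, a3⟩, a4, a5⟩ := mem_Z0.1 z.1.2
    simp only [hq, so_eq h l] at a2 a3 a4 a5
    refine mem_Z0.2 ⟨fun g hg j hj => ?_, a2, ⟨W, o, a3⟩, a4, a5⟩
    have := a1 g hg j hj
    rwa [hq, hq, hq, mul_so h l (d g hg), ← so_add, so_inj h l] at this
  · rw [hq, hq, so_inj h l]
    exact congrArg (fun y : Zr Γ T α P => y.1.1 g 0) m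

theorem lift (h : Tq ρ J) (l : 0 < J) (d : ∀ g ∈ Γ, tt ρ ∣ χ g - ρ (C (α g))) :
    ∃ f : Zr Γ T α P → Zr Γ T χ P, Function.Injective f := by
  refine ⟨fun z => ⟨(fun g _ => so ρ J (z.1.1 g 0), 0), ?_⟩, fun z w m => ext fun g => ?_⟩
  · obtain ⟨a1, a2, ⟨W, o, a3⟩, a4, a5⟩ := mem_Z0.1 z.2
    simp only [← so_eq (ρ := ρ) h l] at a2 a3 a4 a5
    refine mem_Z0.2 ⟨fun g hg j hj => ?_, a2, ⟨W, o, a3⟩, a4, a5⟩
    show so ρ J _ = so ρ J _ + χ g * so ρ J _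
    rw [a1 g hg j hj, mul_so h l (d g hg), so_add]
  · exact (so_inj h l).1 (congrArg (fun y : Zr Γ T χ P => y.1.1 g 0) m)

theorem card (h : Tq ρ J) (d : ∀ g ∈ Γ, tt ρ ∣ χ g - ρ (C (α g))) [Finite (Zr Γ T α P)] :
    Finite (Zr Γ T χ P) ∧
      ∀ i, (∀ z : Zr Γ T χ P, ∀ g, tt ρ ^ i * z.1.1 g 0 = 0) → Nat.card (Zr Γ T χ P) ≤ Nat.card (Zr Γ T α P) ^ i := by
  obtain ⟨f, hf⟩ := down (T := T) (P := P) h d
  have := Finite.of_injective f hf
  have k : ∀ i, (∀ z : Zr Γ T χ P, ∀ g, tt ρ ^ i * z.1.1 g 0 = 0) → Finite (Zr Γ T χ P) ∧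
      Nat.card (Zr Γ T χ P) ≤ Nat.card (Zr Γ T α P) ^ i := fun i m => by
    obtain ⟨a, b⟩ := ker_pow (mu ρ Γ T χ P) i
    let u : Zr Γ T χ P → (mu ρ Γ T χ P ^ i).ker := fun z => ⟨z, mem_pow.2 (m z)⟩
    have hu : Function.Injective u := fun z w e => congrArg Subtype.val e
    exact ⟨Finite.of_injective u hu, (Nat.card_le_card_of_injective u hu).trans
      (b.trans (Nat.pow_le_pow_left (Nat.card_le_card_of_injective f hf) i))⟩
  refine ⟨(k J fun z g => ?_).1, fun i m => (k i m).2⟩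
  rw [← map_pow, (h.ker _).2 dvd_rfl, zero_mul]

/-- a small submodule is killed by a small power -/
theorem kill [Finite (Zr Γ T χ P)] {i : ℕ} {Y : Set (Zr Γ T χ P)} (b : Nat.card Y ≤ pp ^ i)
    {z : Zr Γ T χ P} (m : ∀ r : R, r • z ∈ Y) (g : GQ) : tt ρ ^ i * z.1.1 g 0 = 0 := by
  by_contra n
  have k : ∀ p : (ZMod pp)⟦X⟧, ρ p * z.1.1 g 0 = 0 → X ^ (i + 1) ∣ p := fun p e => by
    rcases eq_or_ne p 0 with rfl | p0
    · exact dvd_zero _
    obtain ⟨s, u, rfl⟩ := IsDiscreteValuationRing.eq_unit_mul_pow_irreducible p0 X_irreducible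
    refine Dvd.dvd.mul_left (pow_dvd_pow _ (not_le.1 fun l : s ≤ i => n ?_)) _
    rw [← map_pow, ← Nat.sub_add_cancel l, pow_add, ← u.inv_mul_cancel_left (X ^ s), map_mul,
      map_mul, mul_assoc, mul_assoc, e, mul_zero, mul_zero]
  let q : (Fin (i + 1) → ZMod pp) → (ZMod pp)⟦X⟧ := fun c => mk fun n =>
    if l : n < i + 1 then c ⟨n, l⟩ else 0
  let f : (Fin (i + 1) → ZMod pp) → Y := fun c => ⟨ρ (q c) • z, m _⟩
  have hf : Function.Injective f := fun c c' e => funext fun j => by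
    have e' : ρ (q c) * z.1.1 g 0 = ρ (q c') * z.1.1 g 0 :=
      congrArg (fun y : Y => y.1.1.1 g 0) e
    have := X_pow_dvd_iff.1 (k (q c - q c') (by rw [map_sub, sub_mul, e', sub_self])) j j.2
    simpa only [q, map_sub, coeff_mk, dif_pos j.2, sub_eq_zero] using this
  have := (Nat.card_le_card_of_injective f hf).trans b
  rw [Nat.card_fun, Nat.card_zmod, Nat.card_eq_fintype_card, Fintype.card_fin,
    Nat.pow_le_pow_iff_right pp_prime.one_lt] at this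
  omega

/-- the residual group is bounded -/
theorem res {S : Finset ℕ} (h : Ge Γ S (r1 α)) (k : ℕ) : ∃ C : ℕ, ∀ (T : Finset ℕ) P, T.card ≤ k →
    (∀ l ∈ T, l.Prime) →
    Finite (Zr Γ (S ∪ T) α P) ∧ Nat.card (Zr Γ (S ∪ T) α P) ≤ pp ^ C := by
  obtain ⟨C, hC⟩ := P014Y.Pr.bnd h
  refine ⟨C + 2 * k, fun T P hk pr => ?_⟩
  obtain ⟨f1, f2⟩ := hC Empty Unit T (fun _ => P) (fun _ _ => 0) pr
  exact ⟨f1, f2.trans (Nat.pow_le_pow_right pp_prime.pos (by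
    simp only [Fintype.card_empty, Fintype.card_fin]
    omega))⟩

end Lx

end Vale.Agent.P014Z.Ra
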