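import Vale.Agent.P014Z.Ml.Wd
import Vale.Agent.P014Y.Rd.Loi

/-!
# P014Z: the local indices at the tame places, any odd prime, any residual character
-/

set_option autoImplicit false
set_option linter.all false

open NumberField
open scoped Pointwise PowerSeries

noncomputable section

namespace Vale.Agent.P014Z.Ra.Li

open Vale.Agent.P022 Vale.Agent.P014U
open Vale.Agent.P027M.S (Inert)
open Vale.Agent.P022D.W (dec inP_le_dec conj_inP phi_mem dec_gen exists_phi)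
open Vale.Agent.P022.H443 (inP)
open Vale.Agent.P022E.GW (Ov Fb)
open Vale.Agent.P022K.CH.Loc (WMod chi_data exists_tau)
open Vale.Agent.P014Y.Rd.Li (Cc Tg move)
open Ml

variable [Pp] {R : Type} [CommRing R] {ρ : (ZMod pp)⟦X⟧ →+* R} {J : ℕ}

theorem chr (ρ : (ZMod pp)⟦X⟧ →+* R) : (pp : R) = 0 := by
  have h : ((pp : ℕ) : (ZMod pp)⟦X⟧) = 0 := by
    rw [← map_natCast (PowerSeries.C (R := ZMod pp)), ZMod.natCast_self, map_zero]
  have := congrArg ρ h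
  rwa [map_natCast, map_zero] at this

theorem nil (q : Tq ρ J) : tt ρ ^ J = 0 := by rw [← map_pow, q.ker]

theorem ann (q : Tq ρ J) (h : 2 ≤ J) {x : R} (e : tt ρ * x = 0) :
    ∃ c : ZMod pp, x = tt ρ * (tt ρ ^ (J - 2) * ρ (PowerSeries.C c)) := by
  obtain ⟨y, rfl⟩ := q.sur x
  obtain ⟨k, rfl⟩ := Nat.exists_eq_add_of_le h
  rw [← map_mul, q.ker, show 2 + k = k + 1 + 1 by omega, pow_succ',
    mul_dvd_mul_iff_left PowerSeries.X_ne_zero] at e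
  obtain ⟨s, rfl⟩ := e
  refine ⟨PowerSeries.constantCoeff s, ?_⟩
  obtain ⟨s', hs⟩ := PowerSeries.X_dvd_iff.2
    (show PowerSeries.constantCoeff (s - PowerSeries.C (PowerSeries.constantCoeff s)) = 0 by simp)
  have n := nil q
  rw [sub_eq_iff_eq_add.1 hs]
  simp only [map_mul, map_add, map_pow, Nat.add_sub_cancel_left, PowerSeries.constantCoeff_X,
    PowerSeries.constantCoeff_C, zero_mul, zero_add]
  linear_combination ρ s' * n

theorem dic (q : Tq ρ J) (x : R) : IsUnit x ∨ tt ρ ∣ x := by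
  obtain ⟨y, rfl⟩ := q.sur x
  by_cases h : PowerSeries.constantCoeff y = 0
  · exact .inr (map_dvd ρ (PowerSeries.X_dvd_iff.2 h))
  · exact .inl ((PowerSeries.isUnit_iff_constantCoeff.2 (Ne.isUnit h)).map ρ)

theorem uni (q : Tq ρ J) {x : R} (h : tt ρ ∣ x - 1) : x ^ pp ^ J = 1 := by
  obtain ⟨b, hb⟩ := h
  obtain h | h := subsingleton_or_nontrivial R
  · exact Subsingleton.elim _ _
  have : CharP R pp := (CharP.charP_iff_prime_eq_zero pp_prime).2 (chr ρ)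
  rw [sub_eq_iff_eq_add.1 hb, add_pow_char_pow, one_pow, mul_pow,
    pow_eq_zero_of_le (Nat.lt_pow_self one_lt).le (nil q), zero_mul, zero_add]

variable {D V Γ : Subgroup GQ} {χ z : GQ → R} {g h : GQ} {l : ℕ} {Q : Ideal (𝓞 Qb)} {τ φ : GQ}

theorem wild (c : Cc D V χ z) (h3 : (pp : R) = 0) {k : ℕ} (co : l.Coprime pp) (m : g ∈ D)
    (e : χ g ^ pp ^ k = 1) (w : WMod l V g) : χ g = 1 ∧ z g = 0 := by
  obtain ⟨n, w⟩ := w
  obtain ⟨w1, w2⟩ := c.tr _ (D.pow_mem m _) w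
  obtain ⟨p1, -, -, p4⟩ := c.pw m (l ^ n)
  have e1 : χ g = 1 := by
    have := pow_gcd_eq_one.2 ⟨p1.symm.trans w1, e⟩
    rwa [Nat.Coprime.pow n k co, pow_one] at this
  refine ⟨e1, ?_⟩
  obtain ⟨a, b, ab⟩ := (Nat.isCoprime_iff_coprime.2 (co.pow_left n)).map (Int.castRingHom R)
  simp only [eq_intCast, Int.cast_natCast] at ab
  rw [p4 e1] at w2
  linear_combination a * w2 - z g * ab + b * z g * h3

/-- the standing hypotheses -/
structure Hy (l : ℕ) (Q : Ideal (𝓞 Qb)) (τ φ : GQ) (V : Subgroup GQ) (χ z : GQ → R) : Prop where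
  ov : Ov l Q
  co : l.Coprime pp
  h3 : (pp : R) = 0
  tg : Tg l Q τ
  fb : Fb l Q φ
  nrm : V.Normal
  opn : IsOpen (V : Set GQ)
  cc : Cc (dec Q) V χ z

/-- the character has order a power of `p` on inertia -/
def Un (Q : Ideal (𝓞 Qb)) (χ : GQ → R) : Prop := ∃ k, ∀ s ∈ inP Q, χ s ^ pp ^ k = 1

theorem Hy.sub (H : Hy l Q τ φ V χ z) (r m : R) :
    Hy l Q τ φ V χ fun g => r * z g - (χ g - 1) * m := { H with cc := H.cc.sub r m }

theorem Hy.fm (H : Hy l Q τ φ V χ z) : φ ∈ dec Q := phi_mem H.ov.1 H.ov.2.1 H.fb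

theorem Hy.tm (H : Hy l Q τ φ V χ z) : τ ∈ dec Q := inP_le_dec H.tg.1

theorem Hy.cm (H : Hy l Q τ φ V χ z) (a : g ∈ dec Q) (b : h ∈ dec Q) :
    χ (g * h * g⁻¹ * h⁻¹) = 1 := by
  have e := H.cc.mul h b _ ((dec Q).inv_mem b)
  rw [mul_inv_cancel, H.cc.one.1] at e
  rw [H.cc.mul _ (mul_mem (mul_mem a b) (inv_mem a)) _ (inv_mem b), (H.cc.cj a b).1, ← e]

theorem Hy.spl (H : Hy l Q τ φ V χ z) (a : g ∈ dec Q) (b : h ∈ dec Q) :
    z (g * h * g⁻¹ * h⁻¹) = (1 - χ h) * z g + (χ g - 1) * z h := by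
  have e := H.cc.coc _ (mul_mem (mul_mem (mul_mem a b) (inv_mem a)) (inv_mem b)) _ b
  rw [inv_mul_cancel_right, (H.cc.cj a b).2, H.cm a b] at e
  linear_combination -e

theorem Hy.com (H : Hy l Q τ φ V χ z) (a : g ∈ inP Q) (b : h ∈ inP Q) :
    z (g * h * g⁻¹ * h⁻¹) = 0 := by
  have := H.nrm
  obtain ⟨k, _, _, c, -, w, -⟩ := chi_data V H.opn H.ov
  have m := mul_mem (mul_mem (mul_mem a b) (inv_mem a)) (inv_mem b)
  refine (wild (k := 0) H.cc H.h3 H.co (inP_le_dec m)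
    (by rw [H.cm (inP_le_dec a) (inP_le_dec b), one_pow]) ((w ⟨_, m⟩).1 ?_)).2
  show c (⟨g, a⟩ * ⟨h, b⟩ * ⟨g, a⟩⁻¹ * ⟨h, b⟩⁻¹) = 1
  rw [map_mul, map_mul, map_mul, mul_right_comm (c _) (c ⟨h, b⟩), ← map_mul, mul_inv_cancel,
    map_one, one_mul, ← map_mul, mul_inv_cancel, map_one]

theorem Hy.ram (H : Hy l Q τ φ V χ z) (t : h ∈ inP Q) (m : g ∈ dec Q) :
    (χ h - 1) ^ 2 * z g = (χ g - 1) * ((χ h - 1) * z h) := by
  have n := mul_mem (conj_inP m t) (inv_mem t)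
  have e := H.spl (inP_le_dec t) (inP_le_dec n)
  rw [H.com t n, H.cm m (inP_le_dec t), H.spl m (inP_le_dec t)] at e
  linear_combination e

theorem Hy.tame (H : Hy l Q τ φ V χ z) (un : Un Q χ) {s : GQ} (m : s ∈ inP Q) :
    ∃ n : ℕ, χ s = χ τ ^ n ∧ z s = z (τ ^ n) := by
  obtain ⟨n, w⟩ := H.tg.2 V H.nrm H.opn s m
  obtain ⟨k, hk⟩ := un
  have t := (inP Q).pow_mem H.tg.1 n
  have r := (inP Q).mul_mem ((inP Q).inv_mem t) m
  obtain ⟨e1, e2⟩ := wild H.cc H.h3 H.co (inP_le_dec r) (hk _ r) w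
  have a := H.cc.mul _ (inP_le_dec t) _ (inP_le_dec r)
  have b := H.cc.coc _ (inP_le_dec t) _ (inP_le_dec r)
  rw [mul_inv_cancel_left, e1, mul_one, (H.cc.pw (inP_le_dec H.tg.1) n).1] at a
  rw [mul_inv_cancel_left, e2, mul_zero, add_zero] at b
  exact ⟨n, a, b⟩

theorem Hy.cob (H : Hy l Q τ φ V χ z) (un : Un Q χ) (r m : R) (e1 : r * z τ = (χ τ - 1) * m)
    (e2 : r * z φ = (χ φ - 1) * m) : ∀ g ∈ dec Q, r * z g = (χ g - 1) * m := by
  intro g a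
  have H' := H.sub r m
  obtain ⟨k, s, u, hs, hu, e⟩ := dec_gen H.ov.1 H.ov.2.1 H.ov.2.2 H.fb a V H.opn
  have f := (dec Q).pow_mem H.fm k
  have um : u ∈ dec Q := by
    have := mul_mem (mul_mem a (inv_mem (inP_le_dec hs))) (inv_mem f)
    rwa [e, mul_inv_cancel_right, mul_inv_cancel_right] at this
  obtain ⟨n, -, b⟩ := H'.tame un hs
  have c1 := H'.cc.coc _ (mul_mem um f) _ (inP_le_dec hs)
  have c2 := H'.cc.coc _ um _ f
  rw [← e, c2, b, (H'.cc.pw H.tm n).2.2.1 (sub_eq_zero.2 e1),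
    (H'.cc.pw H.fm k).2.2.1 (sub_eq_zero.2 e2), (H'.cc.tr u um hu).2] at c1
  linear_combination c1

theorem Hy.fr (H : Hy l Q τ φ V χ z) (un : Un Q χ) :
    χ τ ^ l = χ τ ∧ (1 - χ τ) * z φ + χ φ * z τ = z (τ ^ l) := by
  have := H.nrm
  obtain ⟨k, _, _, c, -, -, w⟩ := chi_data V H.opn H.ov
  obtain ⟨n, hn⟩ := un
  have t := (inP Q).pow_mem H.tg.1 l
  have r := (inP Q).mul_mem (conj_inP H.fm H.tg.1) ((inP Q).inv_mem t)
  obtain ⟨e1, e2⟩ := wild H.cc H.h3 H.co (inP_le_dec r) (hn _ r) (w φ H.fb τ H.tg.1)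
  have a := H.cc.mul _ (inP_le_dec r) _ (inP_le_dec t)
  have b := H.cc.coc _ (inP_le_dec r) _ (inP_le_dec t)
  rw [inv_mul_cancel_right, e1, one_mul, (H.cc.cj H.fm H.tm).1, (H.cc.pw H.tm l).1] at a
  rw [inv_mul_cancel_right, e1, e2, (H.cc.cj H.fm H.tm).2, one_mul, zero_add] at b
  exact ⟨a.symm, b⟩

theorem zpw (c : Cc D V χ z) (m : g ∈ D) (e : (χ g - 1) * z g = 0) (n : ℕ) :
    z (g ^ n) = n * z g := by
  induction n with
  | zero => simp [c.one.2]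
  | succ n ih =>
    rw [pow_succ', c.coc _ m _ (D.pow_mem m n), ih]
    push_cast
    linear_combination n * e

/-- one place -/
theorem loc (q : Tq ρ J) (o : Ov l Q) (n3 : l ≠ pp)
    (lt : (∃ t, Inert Q t ∧ χ t - 1 ∣ tt ρ) ∨
      ((∀ t, Inert Q t → χ t = 1) ∧ ∀ φ, Fb l Q φ → χ φ - 1 ∣ tt ρ ∧ χ φ - l ∣ tt ρ))
    {V₀ : Subgroup GQ} (v1 : V₀.Normal) (v2 : IsOpen (V₀ : Set GQ)) {z₀ : GQ → R}
    (c0 : Cc (dec Q) V₀ χ z₀) :
    ∃ (τ φ : GQ) (α β : R), ∀ (z : GQ → R) (V : Subgroup GQ), V.Normal → IsOpen (V : Set GQ) →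
      Cc (dec Q) V χ z → (∃ m, ∀ g ∈ dec Q, tt ρ ^ 2 * z g = (χ g - 1) * m) ∧
      (2 ≤ J → (∀ g, tt ρ * z g = 0) → (α * z τ + β * z φ = 0 ∨
        (∃ t, Inert Q t ∧ IsUnit (χ t - 1)) ∨ ∀ φ, Fb l Q φ → IsUnit (χ φ - l)) →
        ∃ m, ∀ g ∈ dec Q, z g = (χ g - 1) * m) := by
  obtain ⟨τ, tg⟩ := exists_tau o
  obtain ⟨φ, fb⟩ := exists_phi o.1 o.2.1 o.2.2
  have co : l.Coprime pp := (Nat.coprime_primes o.1 pp_prime).2 n3
  have hy : ∀ (z : GQ → R) (V : Subgroup GQ), V.Normal → IsOpen (V : Set GQ) → Cc (dec Q) V χ z →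
      Hy l Q τ φ V χ z := fun z V a b c => ⟨o, co, chr ρ, tg, fb, a, b, c⟩
  have H0 := hy _ V₀ v1 v2 c0
  by_cases un : ∃ t, Inert Q t ∧ IsUnit (χ t - 1)
  · obtain ⟨t, ti, u⟩ := un
    obtain ⟨y, hy'⟩ := u.exists_left_inv
    have k : ∀ (z : GQ → R) (V : Subgroup GQ), V.Normal → IsOpen (V : Set GQ) →
        Cc (dec Q) V χ z → ∀ g ∈ dec Q, z g = (χ g - 1) * (y * z t) := fun z V a b c g m => by
      have := (hy z V a b c).ram (h := t) ti m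
      linear_combination y ^ 2 * this - (z g * (y * (χ t - 1) + 1) - (χ g - 1) * y * z t) * hy'
    exact ⟨τ, φ, 0, 0, fun z V a b c => ⟨⟨tt ρ ^ 2 * (y * z t), fun g m => by
      rw [k z V a b c g m]; ring⟩, fun _ _ _ => ⟨_, k z V a b c⟩⟩⟩
  have rs : ∀ s ∈ inP Q, tt ρ ∣ χ s - 1 := fun s m => (dic q _).resolve_left fun u => un ⟨s, m, u⟩
  have U : Un Q χ := ⟨J, fun s m => uni q (rs s m)⟩
  obtain ⟨b₀, hb₀⟩ := rs τ tg.1
  have zt : ∀ (z : GQ → R) (V : Subgroup GQ), V.Normal → IsOpen (V : Set GQ) → Cc (dec Q) V χ z →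
      (∀ g, tt ρ * z g = 0) → (∀ φ, Fb l Q φ → IsUnit (χ φ - l)) → z τ = 0 := fun z V a b c k u => by
    have e := ((hy z V a b c).fr U).2
    rw [zpw c H0.tm (by linear_combination z τ * hb₀ + b₀ * k τ)] at e
    exact (u φ fb).mul_right_eq_zero.1 (by linear_combination e + z φ * hb₀ + b₀ * k φ)
  obtain ⟨t, ti, td⟩ | ⟨u, f⟩ := lt
  · obtain ⟨n, a, -⟩ := H0.tame U (s := t) ti
    obtain ⟨u, hu⟩ := (sub_one_dvd_pow_sub_one (χ τ) n).trans (a ▸ td)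
    have k1 : ∀ (z : GQ → R) (V : Subgroup GQ), V.Normal → IsOpen (V : Set GQ) →
        Cc (dec Q) V χ z → ∃ m, ∀ g ∈ dec Q, tt ρ ^ 2 * z g = (χ g - 1) * m := fun z V a1 a2 c =>
      ⟨tt ρ * u * z τ, fun g m => by
        have := (hy z V a1 a2 c).ram tg.1 m
        rw [hu]
        linear_combination u ^ 2 * this⟩
    obtain v | ⟨b, hb⟩ := dic q (χ φ - 1)
    · obtain ⟨y, hy'⟩ := v.exists_left_inv
      refine ⟨τ, φ, 1, 0, fun z V a1 a2 c => ⟨k1 z V a1 a2 c, fun j k e => ?_⟩⟩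
      have e0 : z τ = 0 := e.elim (fun e => by linear_combination e) fun e =>
        zt z V a1 a2 c k (e.resolve_left un)
      refine ⟨y * z φ, fun g m => (one_mul _).symm.trans ((hy z V a1 a2 c).cob U 1 _ ?_ ?_ g m)⟩
      · linear_combination e0 - y * z φ * hb₀ - y * b₀ * k φ
      · linear_combination - z φ * hy'
    refine ⟨τ, φ, -(b * u), 1, fun z V a1 a2 c => ⟨k1 z V a1 a2 c, fun j k e => ?_⟩⟩
    obtain e | e := e
    · obtain ⟨s, hs⟩ := ann q j (k τ)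
      generalize tt ρ ^ (J - 2) * ρ (PowerSeries.C s) = y at hs
      refine ⟨u * y, fun g m => (one_mul _).symm.trans ((hy z V a1 a2 c).cob U 1 _ ?_ ?_ g m)⟩
      · linear_combination hs + y * hu
      · linear_combination e + b * u * hs - u * y * hb
    have e1 := (e.resolve_left un) φ fb
    obtain ⟨w, hw⟩ : tt ρ ∣ ∑ i ∈ Finset.range l, (χ τ ^ i - 1) :=
      Finset.dvd_sum fun i _ => (rs τ tg.1).trans (sub_one_dvd_pow_sub_one _ i)
    rw [Finset.sum_sub_distrib, Finset.sum_const, Finset.card_range, nsmul_eq_mul, mul_one] at hw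
    have g1 := geom_sum_mul (χ τ) l
    rw [(H0.fr U).1] at g1
    have n1 : IsNilpotent (tt ρ * (w + b)) := ⟨J, by rw [mul_pow, nil q, zero_mul]⟩
    have u1 := n1.isUnit_add_right_of_commute e1.neg (Commute.all _ _)
    have t0 : χ τ - 1 = 0 := u1.mul_right_eq_zero.1 (by
      linear_combination g1 - (χ τ - 1) * hw - (χ τ - 1) * hb)
    refine ⟨0, fun g _ => ?_⟩
    obtain ⟨s, hs⟩ := ann q j (k g)
    rw [hs, hu, t0]
    ring
  · obtain ⟨⟨a, ha⟩, b, hb⟩ := f φ fb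
    refine ⟨τ, φ, 1, 0, fun z V a1 a2 c => ⟨⟨tt ρ * a * z φ, (hy z V a1 a2 c).cob U _ _ ?_ ?_⟩,
      fun j k e => ?_⟩⟩
    · have := ((hy z V a1 a2 c).fr U).2
      rw [(c.pw H0.tm l).2.2.2 (u τ tg.1)] at this
      rw [u τ tg.1] at this ⊢
      linear_combination tt ρ * z τ * hb + tt ρ * b * this
    · linear_combination tt ρ * z φ * ha
    · have e0 : z τ = 0 := e.elim (fun e => by linear_combination e) fun e =>
        zt z V a1 a2 c k (e.resolve_left un)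
      obtain ⟨s, hs⟩ := ann q j (k φ)
      generalize tt ρ ^ (J - 2) * ρ (PowerSeries.C s) = y at hs
      refine ⟨a * y, fun g m => (one_mul _).symm.trans ((hy z V a1 a2 c).cob U 1 _ ?_ ?_ g m)⟩
      · rw [u τ tg.1]
        linear_combination e0
      · linear_combination hs + y * ha

variable {T : Finset ℕ} {P : Ideal (𝓞 Qb)}

theorem glob (G : Ge Γ T (r1 χ)) (x : Zr Γ T χ P) : ∃ V : Subgroup GQ, V.Normal ∧
    IsOpen (V : Set GQ) ∧ Cc Γ V χ fun g => x.1.1 g 0 := by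
  obtain ⟨W, w1, w2⟩ := G.lc
  obtain ⟨x1, -, ⟨U, u1, u2⟩, -⟩ := x.2
  have le := (W ⊓ U).normalCore_le
  refine ⟨(W ⊓ U).normalCore, inferInstance, P022K.GW.Pl.core_open (w1.inter u1),
    fun g a h b => ?_, fun g a h b => ?_, fun w a b => ⟨?_, ?_⟩⟩
  · simpa [r1, Matrix.mul_apply] using congrFun (congrFun (G.mul g a h b) 0) 0
  · simpa [r1, P004F.Pr.ac] using congrFun (x1 g a h b) 0
  · simpa [r1] using congrFun (congrFun (w2 w a (le b).1) 0) 0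
  · exact congrFun (u2 w (le b).2) 0

/-- **the local indices**; `U` contains the primes with a residually cyclotomic place -/
theorem loi0 (q : Tq ρ J) (G : Ge Γ T (r1 χ)) (P : Ideal (𝓞 Qb))
    (h : ∀ l ∈ T, l ≠ pp → ∀ Q, Ov l Q → dec Q ≤ Γ ∧ ((∃ t, Inert Q t ∧ χ t - 1 ∣ tt ρ) ∨
      ((∀ t, Inert Q t → χ t = 1) ∧ ∀ φ, Fb l Q φ → χ φ - 1 ∣ tt ρ ∧ χ φ - l ∣ tt ρ)))
    (Y : Set (Zr Γ T χ P)) (hY : ∀ z, z ∈ Y ↔
      ∀ l ∈ T, l ≠ pp → ∀ Q, Ov l Q → ∃ m : R, ∀ g ∈ dec Q, z.1.1 g 0 = (χ g - 1) * m) :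
    (∀ z : Zr Γ T χ P, tt ρ ^ 2 • z ∈ Y) ∧
    (2 ≤ J → (∀ (z : Zr Γ T χ P) g, tt ρ * z.1.1 g 0 = 0) → Finite (Zr Γ T χ P) →
      ∀ U : Finset ℕ, (∀ l ∈ T, l ≠ pp → l ∉ U → ∀ Q, Ov l Q →
        (∃ t, Inert Q t ∧ IsUnit (χ t - 1)) ∨ ∀ φ, Fb l Q φ → IsUnit (χ φ - l)) →
      Nat.card (Zr Γ T χ P) ≤ pp ^ (2 * U.card) * Nat.card Y) := by
  obtain ⟨V₀, v1, v2, c0⟩ := glob (P := P) G 0
  have L := fun l (m : l ∈ T) (n : l ≠ pp) Q (o : Ov l Q) =>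
    loc q o n (h l m n Q o).2 v1 v2 (c0.mono (h l m n Q o).1)
  refine ⟨fun x => (hY _).2 fun l m n Q o => ?_, fun j kt fin U hU => ?_⟩
  · obtain ⟨V, a1, a2, c⟩ := glob G x
    obtain ⟨τ, φ, α, β, k⟩ := L l m n Q o
    exact (k _ V a1 a2 (c.mono (h l m n Q o).1)).1
  obtain ⟨γ, hγ⟩ := Subgroup.index_eq_two_iff.1 G.idx
  let U' := U ∩ T.erase pp
  have mem : ∀ i : U', i.1 ∈ T ∧ i.1 ≠ pp := fun i =>
    (Finset.mem_erase.1 (Finset.mem_inter.1 i.2).2).symm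
  choose Q₀ o₀ using fun i : U' => P022K.GW.Pl.ex_ov (G.pr _ (mem i).1)
  let Q : U' × Bool → Ideal (𝓞 Qb) := fun i => if i.2 then Q₀ i.1 else γ⁻¹ • Q₀ i.1
  have o : ∀ i, Ov i.1.1 (Q i) := fun ⟨i, b⟩ => by
    cases b
    exacts [P022K.GW.ov_smul (o₀ i) _, o₀ i]
  choose τ φ α β k using fun i : U' × Bool => L _ (mem i.1).1 (mem i.1).2 _ (o i)
  let F : Zr Γ T χ P →+ (U' × Bool → R) := AddMonoidHom.mk'
    (fun x i => α i * x.1.1 (τ i) 0 + β i * x.1.1 (φ i) 0) fun x y => funext fun i => by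
      simp only [Submodule.coe_add, Prod.fst_add, Pi.add_apply]
      ring
  have k1 : ∀ x ∈ F.ker, x ∈ Y := fun x e => (hY x).2 fun l m n Q' o' => by
    obtain ⟨V, a1, a2, c⟩ := glob G x
    by_cases s : l ∈ U
    swap
    · obtain ⟨τ, φ, α, β, k⟩ := L l m n Q' o'
      exact (k _ V a1 a2 (c.mono (h l m n Q' o').1)).2 j (kt x) (.inr (hU l m n s Q' o'))
    let i : U' := ⟨l, Finset.mem_inter.2 ⟨s, Finset.mem_erase.2 ⟨n, m⟩⟩⟩
    have le := fun b => (h l m n _ (o (i, b))).1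
    have u := fun b => (k (i, b) _ V a1 a2 (c.mono (le b))).2 j (kt x) (.inl (congrFun e (i, b)))
    obtain ⟨g, rfl⟩ := P022K.GW.Pl.ov_trans (o₀ i) o'
    obtain ⟨a, -⟩ | ⟨a, -⟩ := hγ g
    · have := move c (le false) a (u false)
      rwa [show (g * γ) • Q (i, false) = g • Q₀ i by
        rw [show Q (i, false) = γ⁻¹ • Q₀ i from rfl, mul_smul, smul_inv_smul]] at this
    · exact move c (le true) a (u true)
  have k2 : ∀ y : F.range, ∃ c : U' × Bool → ZMod pp,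
      y.1 = fun i => tt ρ * (tt ρ ^ (J - 2) * ρ (PowerSeries.C (c i))) := fun ⟨_, x, rfl⟩ => by
    choose c hc using fun i => ann q j (x := F x i) (by
      show tt ρ * (α i * x.1.1 (τ i) 0 + β i * x.1.1 (φ i) 0) = 0
      linear_combination α i * kt x (τ i) + β i * kt x (φ i))
    exact ⟨c, funext hc⟩
  choose c hc using k2
  have n1 : Nat.card F.range ≤ pp ^ (2 * U.card) := by
    refine (Nat.card_le_card_of_injective c fun y y' e => Subtype.ext ?_).trans ?_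
    · rw [hc, hc, e]
    · rw [Nat.card_fun, Nat.card_zmod, Nat.card_prod, Nat.card_eq_fintype_card, Fintype.card_coe,
        Nat.card_eq_fintype_card, Fintype.card_bool, mul_comm]
      exact Nat.pow_le_pow_right pp_pos
        (Nat.mul_le_mul_left 2 (Finset.card_le_card Finset.inter_subset_left))
  have n2 : Nat.card F.ker ≤ Nat.card Y :=
    Nat.card_le_card_of_injective (fun x => ⟨x.1, k1 x.1 x.2⟩) fun x y e =>
      Subtype.ext (congrArg (fun t : Y => t.1) e)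
  rw [← F.ker.index_mul_card, AddSubgroup.index_ker]
  exact Nat.mul_le_mul n1 n2

end Vale.Agent.P014Z.Ra.Li
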