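import Vale.Agent.P014Z.Ra.St
import Vale.Agent.P014Z.Ra.Lex0
import Vale.Agent.P014Z.Ml.Mul
import Vale.Agent.P014Y.Mu.Lv0
import Vale.Agent.P022K.CH.Fld

/-!
# P014Z, block Ra: the rows `ALG`, `ALB`, `ALM`
-/

set_option autoImplicit false
set_option linter.all false

open NumberField Matrix
open scoped Pointwise PowerSeries Classical

noncomputable section

namespace Vale.Agent.P014Z.Ra

open Vale.Agent.P022 Vale.Agent.P014U
open Vale.Agent.P022D.W (dec)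
open Vale.Agent.P022E.GW (Ov Fb)
open Vale.Agent.P022K.G2 (oz In oz_ne oz_one oz_mul mem_Gz Gz_open inert_gz)
open P004R.Db (r1_one r1_mul)

variable [Pp]

namespace Ag

variable {R : Type} [CommRing R] {ρ : (ZMod pp)⟦X⟧ →+* R} {J l : ℕ} {Γ : Subgroup GQ}
  {T L : Finset ℕ} {χ : GQ → R} {α α' : GQ → ZMod pp} {P Q : Ideal (𝓞 Qb)} {g : GQ}

theorem ex_pl (hl : l.Prime) : ∃ P, Ov l P :=
  let ⟨P, h⟩ := P022.H916.exists_prime hl
  ⟨P, hl, h⟩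

theorem gd (h : Ba ρ Γ T χ) : Gd Γ T (r1 χ) := h.1

theorem ge {n : Type} [Fintype n] [DecidableEq n] {a : GQ → Matrix n n R} (h : Gd Γ T a) :
    P014Y.Pr.Ge Γ T a := .of h.1 h.2

/-- more primes -/
theorem mono {n : Type} [Fintype n] [DecidableEq n] {a : GQ → Matrix n n R} (h : Gd Γ T a)
    (pr : ∀ l ∈ L, l.Prime) : Gd Γ (T ∪ L) a :=
  have le : T ⊆ T ∪ L := Finset.subset_union_left
  ⟨⟨h.opn, h.idx, h.cx, le h.two, fun l m => (Finset.mem_union.1 m).elim (h.pr l) (pr l), h.one,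
    h.mul, h.lc, fun g hg ⟨l, hl, k⟩ => h.unr g hg ⟨l, fun m => hl (le m), k⟩⟩, le h.pm⟩

theorem ex_out (h : Γ.index = 2) : ∃ γ, γ ∉ Γ := by
  by_contra! c
  rw [(Subgroup.eq_top_iff' _).2 c, Subgroup.index_top] at h
  omega

theorem cz (t : Tq ρ J) (J0 : 0 < J) {a : ZMod pp} (d : tt ρ ∣ ρ (PowerSeries.C a)) : a = 0 := by
  obtain ⟨y, e⟩ := d
  obtain ⟨y, rfl⟩ := t.sur y
  rw [← sub_eq_zero, ← map_mul, ← map_sub, t.ker] at e
  simpa using PowerSeries.X_dvd_iff.1 ((dvd_pow_self _ J0.ne').trans e)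

/-- the residue of a twist -/
theorem res (t : Tq ρ J) (J0 : 0 < J) (r : tt ρ ∣ χ g - 1) {a : ZMod pp} :
    tt ρ ∣ tw ρ α χ g - ρ (PowerSeries.C a) ↔ α g = a := by
  have k : tt ρ ∣ tw ρ α χ g - ρ (PowerSeries.C (α g)) := by
    rw [tw, ← mul_sub_one]; exact r.mul_left _
  refine ⟨fun d => sub_eq_zero.1 (cz t J0 ?_), fun e => e ▸ k⟩
  simpa using d.sub k

theorem res1 (t : Tq ρ J) (J0 : 0 < J) (r : tt ρ ∣ χ g - 1) :
    tt ρ ∣ tw ρ α χ g - 1 ↔ α g = 1 := by simpa using res t J0 r (a := 1)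

theorem un (t : Tq ρ J) {x : R} {a : ZMod pp} (a0 : a ≠ 0) (d : tt ρ ∣ x - ρ (PowerSeries.C a)) :
    IsUnit x := by
  obtain ⟨y, e⟩ := d
  rw [sub_eq_iff_eq_add'.1 e]
  exact IsNilpotent.isUnit_add_left_of_commute ⟨J, by
    rw [mul_pow, ← map_pow, (t.ker _).2 dvd_rfl, zero_mul]⟩ (((Ne.isUnit a0).map _).map ρ) (.all _ _)

/-- the homomorphism -/
def hm (r : Rc T α) : GQ →* ZMod pp := ⟨⟨α, r.one⟩, r.mul⟩

theorem cj (r : Rc T α) (t g : GQ) : α (t * g * t⁻¹) = α g := by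
  rw [r.mul, r.mul, mul_right_comm, ← r.mul, mul_inv_cancel, r.one, one_mul]

theorem all (r : Rc T α) (o : Ov l P) (h : ∀ g ∈ dec P, α g = 1) (Q) (o' : Ov l Q) :
    ∀ g ∈ dec Q, α g = 1 := fun _ m => P022K.CH.Fld.dec_le (N := (hm r).ker) o o' h m

theorem rc_one : Rc T fun _ => 1 := ⟨rfl, by simp, ⟨⊤, isOpen_univ, fun _ _ => rfl⟩, fun _ _ => rfl⟩

theorem rc_oz (h : pp ∈ T) : Rc T (oz pp) := ⟨oz_one, oz_mul, ⟨_, Gz_open, fun _ => mem_Gz.1⟩,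
  fun g ⟨l, hl, P, o, i⟩ => mem_Gz.1 (inert_gz o (fun e => hl (e ▸ h)) i)⟩

theorem tw_one : tw ρ (fun _ => 1) χ = χ := funext fun g => by simp [tw]

theorem xm (h : Gd Γ T (r1 χ)) {g k : GQ} (a : g ∈ Γ) (b : k ∈ Γ) : χ (g * k) = χ g * χ k :=
  r1_mul.1 (h.mul g a k b)

theorem xi (h : Gd Γ T (r1 χ)) (a : g ∈ Γ) : χ g⁻¹ * χ g = 1 := by
  rw [← xm h (inv_mem a) a, inv_mul_cancel, r1_one.1 h.one]

theorem coc (y : Zr Γ T χ P) {g k : GQ} (a : g ∈ Γ) (b : k ∈ Γ) :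
    y.1.1 (g * k) 0 = y.1.1 g 0 + χ g * y.1.1 k 0 := by
  simpa [P004F.Pr.ac, r1] using congrFun (y.2.1 g a k b) 0

theorem van (y : Zr Γ T χ P) (d : dec P ≤ Γ) (m : g ∈ dec P) : y.1.1 g 0 = 0 := by
  simpa [P004F.Pr.ac] using congrFun (y.2.2.2.2.2 () g ⟨d m, m⟩) 0

theorem zero (y : Zr Γ T χ P) (h : ∀ g ∈ Γ, y.1.1 g 0 = 0) : y = 0 := Lx.ext fun g =>
  (em (g ∈ Γ)).elim (h g) fun n => congrFun (y.2.2.1 g n) 0

/-- duality for a pair of twists -/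
theorem dual (fin : FIN) (twi : TWI) (du : DU) (t : Tq ρ J) (J0 : 0 < J) (h : Ba ρ Γ T χ)
    (r : Rc T α) (r' : Rc T α') (e : ∀ g, α g * α' g = oz pp g) (o : Ov pp P)
    (hy : ∀ y : Zr Γ T (tw ρ α' χ) P,
      (∀ w ∈ Γ, χ w = 1 → α w = 1 → α' w = 1 → y.1.1 w 0 = 0) → y = 0)
    {U : Finset ℕ} (hU : U ⊆ tv T α') (rel : Nw ρ Γ (tw ρ α χ) ∨
      ∃ l ∈ T, l ≠ pp ∧ l ∉ U ∧ ∃ Q, Ov l Q ∧ Rt ρ (tw ρ α χ) Q) :
    pp ^ (2 * U.card) * Nat.card (Y0 Γ T (tw ρ α' χ) P) ≤ Nat.card (Zr Γ T (tw ρ α χ) P) := by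
  have G := gd h
  have nr := Subgroup.normal_of_index_eq_two G.idx
  obtain ⟨γ, hγ⟩ := ex_out G.idx
  let W : Subgroup GQ :=
    { carrier := {w | w ∈ Γ ∧ χ w = 1 ∧ α w = 1 ∧ α' w = 1}
      mul_mem' := fun a b => ⟨mul_mem a.1 b.1, by rw [xm G a.1 b.1, a.2.1, b.2.1, mul_one],
        by rw [r.mul, a.2.2.1, b.2.2.1, mul_one], by rw [r'.mul, a.2.2.2, b.2.2.2, mul_one]⟩
      one_mem' := ⟨one_mem _, r1_one.1 G.one, r.one, r'.one⟩
      inv_mem' := fun a => ⟨inv_mem a.1, by rw [← xi G a.1, a.2.1, mul_one],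
        (hm r).ker.inv_mem a.2.2.1, (hm r').ker.inv_mem a.2.2.2⟩ }
  obtain ⟨W₀, o₀, w₀⟩ := G.lc
  obtain ⟨W₁, o₁, w₁⟩ := r.lc
  obtain ⟨W₂, o₂, w₂⟩ := r'.lc
  refine du R ρ J t J0 Γ W T U _ _ P γ hγ (twi R ρ Γ T χ α h r).1 (twi R ρ Γ T χ α' h r').1 o
    (fun l m Q k => (h.loc l m Q k).1) (fun g m => ?_)
    (Subgroup.isOpen_mono (H₁ := Γ ⊓ W₀ ⊓ (W₁ ⊓ W₂)) (fun g m => ⟨m.1.1, r1_one.1 (w₀ g m.1.1 m.1.2),
      w₁ g m.2.1, w₂ g m.2.2⟩) ((G.opn.inter o₀).inter (o₁.inter o₂)))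
    ⟨fun w m s => ⟨nr.conj_mem w m.1 s, ?_, (cj r s w).trans m.2.2.1, (cj r' s w).trans m.2.2.2⟩⟩
    (fun _ m => m.1) (fun w m => by simp [tw, ← e, m.2.1, m.2.2.1, m.2.2.2])
    (fun y k => hy y fun w a b c d => k w ⟨a, b, c, d⟩) (fun l m => ?_) rel
    (fin R ρ J t Γ T _ P (twi R ρ Γ T χ α' h r').1)
    fun L hL => fin R ρ J t Γ _ _ P (mono (twi R ρ Γ T χ α h r).1 hL)
  · rw [tw, tw, cj r', mul_mul_mul_comm, h.neg γ hγ g m, mul_one, ← map_mul, ← map_mul, e]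
  · by_cases k : s ∈ Γ
    · rw [xm G (mul_mem k m.1) (inv_mem k), xm G k m.1, m.2.1, mul_one, mul_comm, xi G k]
    · rw [← h.neg s k w m.1, m.2.1, one_mul]
  · obtain ⟨a, b, c⟩ := Finset.mem_filter.1 (hU m)
    exact ⟨a, b, fun Q k g s => (res t J0 (h.res g ((h.loc l a Q k).1 s))).2
      (by rw [← e, c Q k g s, mul_one])⟩

theorem nw (t : Tq ρ J) (J0 : 0 < J) (h : Ba ρ Γ T χ) (e : ∀ g, α g * α' g = oz pp g) (m : g ∈ Γ)
    (n : α' g ≠ 1) : Nw ρ Γ (tw ρ α χ) := ⟨g, m, fun d => n (mul_left_cancel₀ (oz_ne (p := pp) g)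
      (by rw [mul_one, ← (res t J0 (h.res g m)).1 d, e, (res t J0 (h.res g m)).1 d]))⟩

end Ag

open Ag

/-- **row ALG** -/
theorem alg (fin : FIN) (twi : TWI) (loi : LOI) (du : DU) : ALG := by
  intro R _ ρ J t J2 Γ T χ α α' P h r r' e o ⟨d, md, nd⟩ ki
  have J0 : 0 < J := by omega
  have G := (twi R ρ Γ T χ α' h r').1
  have dP := (h.loc pp G.pm P o).1
  have nr := Subgroup.normal_of_index_eq_two G.idx
  have a := dual fin twi du t J0 h r r' e o (fun y k => zero y fun g m => ?_) subset_rfl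
    (.inl (nw t J0 h e (dP md) nd))
  have b := loi R ρ J t J2 Γ T (tv T α) _ P G (fun l m n Q k => ⟨(h.loc l m Q k).1, fun s => ?_,
    fun s => Finset.mem_filter.2 ⟨m, n, all r k fun g u => ?_⟩⟩) ki (fin R ρ J t Γ T _ P G)
  · exact (Nat.mul_le_mul_left _ b).trans (by rw [mul_left_comm]; exact Nat.mul_le_mul_left _ a)
  · obtain ⟨x, u, v⟩ := (h.loc l m Q k).2
    exact ⟨x, u, by simpa [tw, (res1 t J0 (h.res x ((h.loc l m Q k).1 u))).1 (s x u)] using v⟩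
  · have := (res t J0 (h.res g ((h.loc l m Q k).1 u))).1 (s g u)
    exact mul_right_cancel₀ (oz_ne (p := pp) g) (by rw [one_mul, ← this, e, this])
  · have c : d * g * d⁻¹ * g⁻¹ ∈ Γ := mul_mem (nr.conj_mem g m d) (inv_mem m)
    have x : χ (d * g * d⁻¹ * g⁻¹) = 1 := by
      rw [xm (gd h) (nr.conj_mem g m d) (inv_mem m), xm (gd h) (mul_mem (dP md) m) (inv_mem (dP md)),
        xm (gd h) (dP md) m]
      linear_combination χ g * χ g⁻¹ * xi (gd h) (dP md) + xi (gd h) m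
    have s : ∀ {β}, Rc T β → β (d * g * d⁻¹ * g⁻¹) = 1 := fun r => by
      rw [r.mul, cj r, ← r.mul, mul_inv_cancel, r.one]
    have u := coc y c (mul_mem m (dP md))
    rw [k _ c x (s r) (s r'), coc y m (dP md), show d * g * d⁻¹ * g⁻¹ * (g * d) = d * g by group,
      coc y (dP md) m, van y dP md, tw, tw, x, s r'] at u
    refine (un t (sub_ne_zero.2 nd) (x := tw ρ α' χ d - 1) ?_).mul_right_eq_zero.1 ?_
    · simpa [sub_sub_sub_cancel_right] using (res t J0 (h.res d (dP md))).2 (rfl : α' d = _)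
    · rw [tw]; simp at u; linear_combination u

/-- **row ALB** -/
theorem alb (fin : FIN) (twi : TWI) (lo1 : LO1) (du : DU) : ALB := by
  intro R _ ρ J t Γ T χ P h o hd ⟨q, mq, q1⟩ B hB z g
  rcases J.eq_zero_or_pos with rfl | J0
  · obtain ⟨x, e⟩ := t.sur (tt ρ ^ (B + 2) * z.1.1 g 0)
    exact e ▸ (t.ker x).2 (by simp)
  have G := gd h
  have dP := (h.loc pp G.pm P o).1
  obtain ⟨Q, oQ⟩ := ex_pl (G.pr q mq)
  obtain ⟨qp, -, om⟩ := P014Y.Mu.Lv.dec_gz oQ q1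
  have a := dual fin twi du t J0 h (rc_oz G.pm) rc_one (fun g => mul_one _) o (U := ∅) ?_
    (Finset.empty_subset _) (.inr ⟨q, mq, qp, by simp, Q, oQ, fun g m =>
      (res1 t J0 (h.res g ((h.loc q mq Q oQ).1 m))).2 (om g m)⟩)
  · rw [tw_one, Finset.card_empty, mul_zero, pow_zero, one_mul] at a
    have := fin R ρ J t Γ T χ P G
    have := Lx.kill (ρ := ρ) (a.trans hB) (z := tt ρ ^ 2 • z) (fun r l m n Q k => by
      obtain ⟨x, e⟩ := lo1 R ρ J t Γ T χ P G (fun l m _ Q k => ⟨(h.loc l m Q k).1,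
        fun g u => h.res g ((h.loc l m Q k).1 u), (h.loc l m Q k).2⟩) z l m n Q k
      exact ⟨r * x, fun g u => (congrArg (r * ·) (e g u)).trans (mul_left_comm _ _ _)⟩) g
    rw [pow_add, mul_assoc]
    exact this
  rw [tw_one]
  refine fun y k => zero y fun g m => ?_
  obtain ⟨d, md, e⟩ := hd g m
  have c : g * d⁻¹ ∈ Γ := mul_mem m (inv_mem (dP md))
  have x : χ (g * d⁻¹) = 1 := by rw [xm G m (inv_mem (dP md)), ← e, mul_comm, xi G (dP md)]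
  have u := coc y c (dP md)
  rw [inv_mul_cancel_right, van y dP md, mul_zero, add_zero] at u
  rw [u]
  generalize g * d⁻¹ = w at c x
  have s : ∀ n : ℕ, χ (w ^ n) = 1 ∧ y.1.1 (w ^ n) 0 = n * y.1.1 w 0 := fun n => by
    induction n with
    | zero => simpa using ⟨r1_one.1 G.one, van y dP (one_mem _)⟩
    | succ n ih =>
      rw [pow_succ, xm G (pow_mem c n) c, coc y (pow_mem c n) c, ih.1, ih.2, x]
      exact ⟨mul_one _, by push_cast; ring⟩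
  have v := k _ (pow_mem c (pp - 1)) (s _).1 ((map_pow (hm (rc_oz G.pm)) w _).trans
    (ZMod.pow_card_sub_one_eq_one (oz_ne w))) rfl
  rw [(s _).2, Nat.cast_pred pp_pos, ← map_natCast (ρ.comp PowerSeries.C), ZMod.natCast_self] at v
  simpa using v

/-- **row ALM** -/
theorem alm (alg : ALG) : ALM := by
  intro R _ ρ J t J2 Γ T χ α α' b P h r r' e o ⟨d, md, nd⟩ G tr rel
  have J0 : 0 < J := by omega
  have dP := (h.loc pp G.pm P o).1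
  have e' : ∀ g, α' g * α g = oz pp g := fun g => (mul_comm _ _).trans (e g)
  have k : Nw ρ Γ (tw ρ α χ) ∧ Nw ρ Γ (tw ρ α' χ) ∨ ∃ l ∈ T, l ≠ pp ∧ ∃ Q, Ov l Q ∧ dec Q ≤ Γ ∧
      Rt ρ (tw ρ α χ) Q ∧ Rt ρ (tw ρ α' χ) Q := rel.imp
    (fun ⟨g, m, n⟩ => ⟨nw t J0 h e (dP md) nd, nw t J0 h e' m n⟩) fun ⟨q, m, q1⟩ => by
      obtain ⟨a, n, c⟩ := Finset.mem_filter.1 m
      obtain ⟨Q, oQ⟩ := ex_pl (G.pr q a)
      have s := fun g u => h.res g ((h.loc q a Q oQ).1 u)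
      exact ⟨q, a, n, Q, oQ, (h.loc q a Q oQ).1, fun g u => (res1 t J0 (s g u)).2 (c Q oQ g u),
        fun g u => (res1 t J0 (s g u)).2 (by
          rw [← (P014Y.Mu.Lv.dec_gz oQ q1).2.2 g u, ← e, c Q oQ g u, one_mul])⟩
  obtain ⟨x, y, z⟩ := tr.elim
    (fun s => Ml.mul R ρ J t J0 Γ T χ b α α' P (ge (gd h)) (ge G) s o dP k) fun s => by
      have := Ml.mul R ρ J t J0 Γ T χ b α' α P (ge (gd h)) (ge G) s o dP (k.imp And.symm
        fun ⟨l, a, n, Q, u, v, w⟩ => ⟨l, a, n, Q, u, v, w.symm⟩)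
      rwa [mul_comm (Nat.card (Zr Γ T (tw ρ α' χ) P))] at this
  refine ⟨x, y, fun ki B hB le => le_trans ?_ (Nat.mul_le_mul_left _ (z B hB le))⟩
  rw [sq, ← mul_assoc, ← mul_assoc]
  exact Nat.mul_le_mul_right _ (alg R ρ J t J2 Γ T χ α α' P h r r' e o ⟨d, md, nd⟩ ki)

end Vale.Agent.P014Z.Ra
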