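import Vale.Agent.P014Z.Ra.St

/-! # P014Z, block Ra: the character of a layer and its twists -/

set_option autoImplicit false
set_option linter.all false

open NumberField PowerSeries

noncomputable section

namespace Vale.Agent.P014Z.Ra

open Vale.Agent.P022 Vale.Agent.P014U
open Vale.Agent.P027M.S (Inert)
open Vale.Agent.P022D.W (dec exists_phi phi_mem inP_le_dec)
open Vale.Agent.P022E.GW (Ov Fb)
open Vale.Agent.P022K.G2 (In)

variable [Pp]

namespace Bs

variable {R : Type} [CommRing R] {ρ : (ZMod pp)⟦X⟧ →+* R} {J N : ℕ}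

theorem pw (h : Tq ρ J) (l : J ≤ pp ^ N) : (1 + tt ρ) ^ pp ^ N = 1 := by
  haveI : CharP (ZMod pp)⟦X⟧ pp := charP_of_injective_ringHom (f := C) C_injective pp
  have e : (1 + X : (ZMod pp)⟦X⟧) ^ pp ^ N = 1 + X ^ pp ^ N := by rw [add_pow_char_pow, one_pow]
  have := congrArg ρ e
  rwa [map_pow, map_add, map_add, map_one, (h.ker _).2 (pow_dvd_pow _ l), add_zero] at this

theorem md (h : Tq ρ J) (l : J ≤ pp ^ N) {a b : ℕ} (e : a ≡ b [MOD pp ^ N]) :
    (1 + tt ρ) ^ a = (1 + tt ρ) ^ b := by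
  rw [pow_eq_pow_mod a (pw h l), e, ← pow_eq_pow_mod b (pw h l)]

theorem m0 (h : Tq ρ J) (l : J ≤ pp ^ N) {a : ℕ} (e : pp ^ N ∣ a) : (1 + tt ρ) ^ a = 1 := by
  rw [md h l ((Nat.modEq_zero_iff_dvd).2 e), pow_zero]

theorem dv0 (k : ℕ) : tt ρ ∣ (1 + tt ρ) ^ k - 1 := by
  simpa only [add_sub_cancel_left, one_pow] using sub_dvd_pow_sub_pow (1 + tt ρ) 1 k

theorem key {k : ℕ} (hk : ¬ pp ∣ k) : (1 + tt ρ) ^ k - 1 ∣ tt ρ := by
  have u : IsUnit (ρ (∑ i ∈ Finset.range k, (1 + X) ^ i)) :=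
    (isUnit_iff_constantCoeff.2 (Ne.isUnit (by
      simp only [map_sum, map_pow, map_add, map_one, constantCoeff_X,
        add_zero, one_pow, Finset.sum_const, Finset.card_range, nsmul_eq_mul, mul_one]
      exact fun z => hk ((ZMod.natCast_eq_zero_iff k pp).1 z)))).map ρ
  have g := geom_sum_mul (1 + tt ρ) k
  rw [add_sub_cancel_left] at g
  rw [← g]
  simp only [map_sum, map_pow, map_add, map_one] at u
  exact u.mul_left_dvd.2 dvd_rfl

theorem r1_inj {χ : GQ → R} {g : GQ} : r1 χ g 0 0 = χ g := by simp [r1]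

end Bs

open Bs

theorem bas : BAS := by
  intro Γ S N c n e op ix cx two pm pr N0 h ng R _ ρ J hT hJ
  have mul : ∀ g ∈ Γ, ∀ g' ∈ Γ, ch ρ e (g * g') = ch ρ e g * ch ρ e g' := fun g a g' b => by
    rw [ch, md hT hJ (h.add g a g' b), pow_add, ch, ch]
  have one : ch ρ e 1 = 1 := by
    have := h.add 1 (one_mem _) 1 (one_mem _)
    rw [one_mul] at this
    exact m0 hT hJ (Nat.modEq_zero_iff_dvd.1 (Nat.ModEq.add_left_cancel' (e 1).val
      (by simpa using this.symm)))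
  obtain ⟨U, uo, hU⟩ := h.opn
  refine ⟨⟨⟨⟨op, ix, cx, Finset.mem_union_left _ two, fun l a => (Finset.mem_union.1 a).elim
      (pr l) Nat.prime_of_mem_primeFactors, by simp [r1, one],
      fun g a g' b => by simp [r1, mul g a g' b, smul_smul, mul_comm],
      ⟨U, uo, fun w a b => by simp [r1, ch, m0 hT hJ (hU w a b)]⟩,
      fun g a ⟨l, n, Q, o, b⟩ => ?_⟩, Finset.mem_union_left _ pm⟩, fun g _ => dv0 _,
    fun γ a g b => by rw [ch, ch, ← pow_add, m0 hT hJ (ng γ a g b)], fun l a Q o => ?_⟩,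
    fun P o g a => ?_⟩
  · simp [r1, ch, m0 hT hJ (h.unr l Q o (fun d => n (Finset.mem_coe.2 (Finset.mem_union_right _
      (Nat.mem_primeFactors.2 ⟨o.1, d, h.c0⟩)))) g a b)]
  · rcases Finset.mem_union.1 a with a | a
    · obtain ⟨le, fr⟩ := h.fro l a Q o
      obtain ⟨φ, f⟩ := exists_phi o.1 o.2.1 o.2.2
      exact ⟨le, φ, phi_mem o.1 o.2.1 f, key (fr φ f)⟩
    · have d := Nat.dvd_of_mem_primeFactors a
      obtain ⟨t, i, v⟩ := h.ram l Q o d
      exact ⟨(h.out l o.1 d).2.1 Q o, t, inP_le_dec i, by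
        rw [ch, md hT hJ v, pow_one, add_sub_cancel_left]⟩
  · obtain ⟨le, fr⟩ := h.fro pp pm P o
    obtain ⟨φ, f⟩ := exists_phi o.1 o.2.1 o.2.2
    have m := phi_mem o.1 o.2.1 f
    have k : ∀ i, ch ρ e (φ ^ i) = ch ρ e φ ^ i := fun i => by
      induction i with
      | zero => rw [pow_zero, one, pow_zero]
      | succ i ih => rw [pow_succ, mul _ (le (pow_mem m i)) _ (le m), ih, pow_succ]
    obtain ⟨u, hu⟩ := Nat.exists_mul_mod_eq_of_coprime (e g).val
      (((Nat.Prime.coprime_iff_not_dvd pp_prime).2 (fr φ f)).symm.pow_right N) (pow_ne_zero N pp_ne)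
    exact ⟨φ ^ u, pow_mem m u, by rw [k, ch, ch, ← pow_mul]; exact md hT hJ hu.2⟩

theorem twi : TWI := by
  intro R _ ρ Γ T χ α b a
  obtain ⟨W, wo, hW⟩ := b.gd.lc
  obtain ⟨V, vo, hV⟩ := a.lc
  have k : ∀ g, r1 χ g = 1 → α g = 1 → r1 (tw ρ α χ) g = 1 := fun g x y => by
    have := congrFun (congrFun x 0) 0
    rw [r1_inj] at this
    simp [r1, tw, y, this]
  refine ⟨⟨⟨b.gd.opn, b.gd.idx, b.gd.cx, b.gd.two, b.gd.pr, k 1 b.gd.one a.one,
    fun g x h y => ?_, ⟨W ⊓ V, wo.inter vo, fun w x y => k w (hW w x y.1) (hV w y.2)⟩,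
    fun g x y => k g (b.gd.unr g x y) (a.unr g y)⟩, b.gd.pm⟩, fun g x => ?_⟩
  · have := congrFun (congrFun (b.gd.mul g x h y) 0) 0
    simp only [r1_inj, Matrix.mul_apply, Fin.sum_univ_one] at this
    simp [r1, tw, a.mul, this, smul_smul, mul_comm, mul_left_comm, mul_assoc]
  · rw [tw, ← mul_sub_one]
    exact (b.res g x).mul_left _

end Vale.Agent.P014Z.Ra
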