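import Vale.Agent.P014Z.Ra.Cnt0
import Vale.Agent.P014Z.Ra.Lex0
import Vale.Agent.P014Z.Ml.Mul
import Vale.Agent.P014Y.Bo.Lv1

/-!
# P014Z, block Ra: the count at every level (helper52)
-/

set_option autoImplicit false
set_option linter.all false

noncomputable section

namespace Vale.Agent.P014Z.Ra.Ct

open NumberField Matrix Module
open scoped Classical Pointwise PowerSeries
open Vale.Agent.P022 (Qb GQ)
open Vale.Agent.P022D.W (dec)
open Vale.Agent.P022E.GW (Ov Fb)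
open Vale.Agent.P022K.G2 (In Lv H0 ex_lv' oz om)
open Vale.Agent.P014U
open L2 (W M2 rh am a1)
open X4S (Pl)
open P014Y.Mu (F Rs Nf Sq hz)
open P014Y.Bo (dg dg_mv)
open P004R.Db (r1_one r1_mul)
open Ml Lx

variable [Pp] {R : Type} [CommRing R] {ρ : (ZMod pp)⟦X⟧ →+* R} {J : ℕ} {Γ : Subgroup GQ}
  {T : Finset ℕ} {χ : GQ → R} {P : Ideal (𝓞 Qb)}

theorem ex_pl (o : Ov pp P) : ∃ pl : Pl, pl.P pp = P := by
  obtain ⟨q⟩ := X4S.pl_ex
  obtain ⟨φ, f⟩ := P022D.W.exists_phi o.1 o.2.1 o.2.2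
  refine ⟨⟨fun l => if l = pp then P else q.P l, fun l => if l = pp then φ else q.σ l, q.τ,
    fun l p => ?_, fun l p => ?_, fun l p n => ?_⟩, if_pos rfl⟩
  · split_ifs with e
    exacts [e ▸ o, q.ov l p]
  · split_ifs with e
    exacts [e ▸ f, q.fb l p]
  · rw [if_neg n]
    exact q.gn l p n

/-- **the count for a plane** -/
theorem cnt (tq : Tq ρ J) (J2 : 2 ≤ J) (G : Ge Γ T (r1 χ)) (rs : ∀ g ∈ Γ, tt ρ ∣ χ g - 1)
    (sq : ∀ l ∈ T, Sq Γ l) {a : GQ →* M2} (r : Rs a T) (n : Nf a Γ) (pl : Pl)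
    [Finite (Z0 Γ T (r2 ρ χ a) (pl.P pp))] :
    pp ^ (2 * ∑ l ∈ T, hz a (dec (pl.P l))) ≤ Nat.card (Z0 Γ T (r2 ρ χ a) (pl.P pp)) := by
  obtain ⟨J, rfl⟩ := Nat.exists_eq_add_of_le' J2
  have l := J.succ.succ_pos
  let τ := ρ.comp PowerSeries.C
  have so' : ∀ c, so ρ (J + 2) c = tt ρ ^ J * tt ρ * τ c := fun c => by
    rw [so, map_mul, map_pow]; exact congrArg (· * _) (pow_succ _ _)
  have h0 : tt ρ ^ J * tt ρ * tt ρ = 0 := by
    rw [← pow_succ, ← pow_succ, ← map_pow]; exact (tq.ker _).2 dvd_rfl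
  have cm := fun g m h k => r1_mul.1 (G.mul g m h k)
  choose! w hw using rs
  choose! u hu using fun g (m : g ∈ Γ) => ex_so tq l (x := tt ρ ^ J * (χ g - 1))
    (by rw [hw g m]; linear_combination w g * h0)
  have u0 : ∀ g ∈ Γ, χ g = 1 → u g = 0 := fun g m e =>
    (so_eq tq l).1 (by rw [← hu g m, e, sub_self, mul_zero])
  have dP := sq pp r.pm _ (pl.ov pp pp_prime)
  obtain ⟨V, oV, hV⟩ := G.lc
  obtain ⟨U, oU, hU⟩ := ex_lv' oV
  obtain ⟨K, y, m, c, hk, ij⟩ := res r G.opn G.idx n pl (fun l m => sq l m _ (pl.ov l (r.pr l m))) u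
    (fun g p h q => (so_inj tq l).1 (by
      rw [so_add, ← hu g (dP p), ← hu h (dP q), ← hu _ (dP (mul_mem p q)), cm g (dP p) h (dP q)]
      linear_combination (tt ρ ^ J * (χ h - 1)) * hw g (dP p) + tt ρ ^ J * tt ρ * w g * hw h (dP q) +
        w g * w h * h0))
    ⟨U, oU, fun g p q => u0 g (dP p) (r1_one.1 (hV g (dP p) (hU q)))⟩
  have mv : ∀ g (v : Fin 2 → R) i, P004F.Pr.ac (r2 ρ χ a g) v i = χ g * ((a g).map τ *ᵥ v) i :=
    fun g v i => congrFun (smul_mulVec (χ g) ((a g).map τ) v) i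
  have mp : ∀ g (v : W), (a g).map τ *ᵥ (τ ∘ v) = τ ∘ (a g *ᵥ v) := fun g v =>
    funext fun i => (RingHom.map_mulVec τ _ _ i).symm
  let z : K → GQ → Fin 2 → R := fun k g => (tt ρ ^ J * tt ρ) • (τ ∘ y k g) -
    tt ρ ^ J • (χ g • (τ ∘ (a g *ᵥ m k)) - τ ∘ m k)
  have z0 : ∀ k g, χ g = 1 → a g = 1 → y k g = 0 → z k g = 0 := fun k g p q s => by
    funext i
    simp only [z, p, q, s, one_mulVec, one_smul, sub_self, smul_zero, sub_zero, Pi.smul_apply,
      Function.comp_apply, Pi.zero_apply, map_zero]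
  refine c.trans (Nat.card_le_card_of_injective (fun k => ⟨((Γ : Set GQ).indicator (z k), 0),
    fun g p h q => ?_, fun g p => Set.indicator_of_notMem (s := Γ) p (z k), ?_, fun g p => ?_, fun _ g p => ?_⟩)
    fun k k' e => ?_)
  · funext i
    simp only [Set.indicator_of_mem (mul_mem p q), Set.indicator_of_mem p, Set.indicator_of_mem q,
      Pi.add_apply, mv, z, mulVec_sub, mulVec_smul, mp, (hk k).1.1 g p h q, am, cm g p h q,
      Pi.sub_apply, Pi.smul_apply, Function.comp_apply, map_add, smul_eq_mul]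
    linear_combination (-(tt ρ ^ J * tt ρ * τ ((a g *ᵥ y k h) i))) * hw g p -
      w g * τ ((a g *ᵥ y k h) i) * h0
  · obtain ⟨U', o', e'⟩ := (hk k).1.2
    exact ⟨Γ ⊓ (V ⊓ (a.ker ⊓ U')), G.opn.inter (oV.inter (r.opn.inter o'.opn)), fun g p =>
      (Set.indicator_of_mem p.1 _).trans
        (z0 k g (r1_one.1 (hV g p.1 p.2.1)) p.2.2.1 (e' g p.1 p.2.2.2))⟩
  · exact Set.indicator_apply_eq_zero.2 fun q =>
      z0 k g (r1_one.1 (G.unr g q p)) (r.unr g p) ((hk k).2.1 g q p)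
  · obtain ⟨e1, e2⟩ := (hk k).2.2 g p.2
    have := hu g p.1
    rw [so'] at this
    funext i
    simp only [Set.indicator_of_mem (show g ∈ (Γ : Set GQ) from p.1), z, e1, e2, Pi.sub_apply, Pi.smul_apply,
      Function.comp_apply, map_mul, smul_eq_mul, P004F.Pr.ac, Finset.univ_eq_empty,
      Finset.sum_empty]
    linear_combination -τ (m k i) * this
  · have e1 : ∀ g ∈ Γ, ∀ i, z k g i = z k' g i := fun g p i => by
      have := congrFun (congrArg (fun x : Z0 Γ T (r2 ρ χ a) (pl.P pp) => x.1.1) e) g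
      simp only [Set.indicator_of_mem p] at this
      exact congrFun this i
    simp only [z, Pi.sub_apply, Pi.smul_apply, Function.comp_apply, smul_eq_mul] at e1
    have e2 : m k = m k' := sub_eq_zero.1 (n _ fun g p => funext fun i => (so_inj tq l).1 (by
      simp only [so', mulVec_sub, Pi.sub_apply, map_sub]
      linear_combination -tt ρ * e1 g p i + (τ (y k g i) - τ (y k' g i) -
        w g * (τ ((a g *ᵥ m k) i) - τ ((a g *ᵥ m k') i))) * h0 -
        tt ρ ^ J * tt ρ * (τ ((a g *ᵥ m k) i) - τ ((a g *ᵥ m k') i)) * hw g p))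
    refine ij k k' (fun g p => funext fun i => (so_inj tq l).1 ?_) e2
    have := e1 g p i
    rw [e2] at this
    rw [so', so']
    linear_combination this

theorem hz_dg {α δ : GQ →* F} {D : Subgroup GQ} {p q : Prop} [Decidable p] [Decidable q]
    (hp : p → ∀ g ∈ D, α g = 1) (hq : q → ∀ g ∈ D, δ g = 1) :
    (if p then 1 else 0) + (if q then 1 else 0) ≤ hz (dg α δ) D := by
  have k : ∀ v : W, v ≠ 0 → (∀ g ∈ D, dg α δ g *ᵥ v = v) → 1 ≤ hz (dg α δ) D := fun v n h =>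
    Submodule.one_le_finrank_iff.2 fun e => n (e.le (P014Y.Mu.Ul.mem_h0.2 h))
  split_ifs with a b b
  · rw [hz, (Submodule.eq_top_iff'.2 fun v => P014Y.Mu.Ul.mem_h0.2 fun g m => by
      rw [dg_mv, hp a g m, hq b g m, one_mul, one_mul]
      exact funext (Fin.forall_fin_two.2 ⟨rfl, rfl⟩)), finrank_top]
    exact (finrank_fin_fun F).ge
  · exact k ![1, 0] (by simp) fun g m => by rw [dg_mv]; simp [hp a g m]
  · exact k ![0, 1] (by simp) fun g m => by rw [dg_mv]; simp [hq b g m]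
  · exact Nat.zero_le _

/-- **the count for two characters** -/
theorem cnt1 (tq : Tq ρ J) (J2 : 2 ≤ J) (G : Ge Γ T (r1 χ)) (rs : ∀ g ∈ Γ, tt ρ ∣ χ g - 1)
    (sq : ∀ l ∈ T, Sq Γ l) (α δ : GQ →* F) (r : Rs (dg α δ) T) (nα : ∃ g ∈ Γ, α g ≠ 1)
    (nδ : ∃ g ∈ Γ, δ g ≠ 1) (oP : Ov pp P) (A B : Finset ℕ) (sA : A ⊆ T) (sB : B ⊆ T)
    (hA : ∀ l ∈ A, ∀ Q, Ov l Q → ∀ g ∈ dec Q, α g = 1)
    (hB : ∀ l ∈ B, ∀ Q, Ov l Q → ∀ g ∈ dec Q, δ g = 1) :
    pp ^ (2 * (A.card + B.card)) ≤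
      Nat.card (Zr Γ T (tw ρ α χ) P) * Nat.card (Zr Γ T (tw ρ δ χ) P) := by
  obtain ⟨pl, rfl⟩ := ex_pl oP
  have dt : ∀ g, α g * δ g = oz pp g := fun g => by
    have := congrFun r.det g
    rw [Pq.Co.om_oz] at this
    rw [← this]
    simp [L2.dt, dg, Fin.prod_univ_two]
  have nw : ∀ α δ : GQ →* F, (∀ g, α g * δ g = oz pp g) → (∃ g ∈ Γ, δ g ≠ 1) →
      Nw ρ Γ (tw ρ α χ) := fun α δ e ⟨g, m, n⟩ => ⟨g, m, fun d => n (by
    have l : 0 < J := by omega
    have d' : tt ρ ∣ tw ρ α χ g - ρ (PowerSeries.C (α g)) := by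
      rw [tw, ← mul_sub_one]; exact (rs g m).mul_left _
    have := (so_inj tq l).1 ((mul_so tq l d 1).symm.trans (mul_so tq l d' 1))
    rw [mul_one, mul_one, ← e] at this
    exact ((Group.isUnit g).map α).mul_left_cancel (this.trans (mul_one _).symm))⟩
  obtain ⟨f, le, -⟩ := Ml.mul R ρ J tq (by omega) Γ T χ (dg α δ) α δ (pl.P pp) G
    ⟨G.opn, G.idx, G.cx, G.pm, G.pr, map_one _, fun g _ h _ => map_mul _ g h,
      ⟨_, r.opn, fun _ _ m => m⟩, fun g _ m => r.unr g m⟩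
    ⟨1, 1, mul_one _, fun g _ => by simp [dg]⟩ oP (sq pp r.pm _ oP)
    (.inl ⟨nw α δ dt nδ, nw δ α (fun g => (mul_comm _ _).trans (dt g)) nα⟩)
  refine le_trans (Nat.pow_le_pow_right pp_prime.pos (Nat.mul_le_mul_left 2 ?_))
    ((cnt tq J2 G rs sq r (fun v h => ?_) pl).trans le)
  · refine le_trans (le_of_eq ?_) (Finset.sum_le_sum fun l m => hz_dg (p := l ∈ A) (q := l ∈ B)
      (fun a => hA l a _ (pl.ov l (r.pr l m))) fun a => hB l a _ (pl.ov l (r.pr l m)))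
    rw [Finset.sum_add_distrib, Finset.sum_boole, Finset.sum_boole, Finset.filter_mem_eq_inter,
      Finset.filter_mem_eq_inter, Finset.inter_eq_right.2 sA, Finset.inter_eq_right.2 sB]
    rfl
  · obtain ⟨g, m, x⟩ := nα
    obtain ⟨g', m', x'⟩ := nδ
    have s := congrFun (h g m) 0
    have t := congrFun (h g' m') 1
    rw [dg_mv] at s t
    exact funext (Fin.forall_fin_two.2 ⟨(mul_left_eq_self₀.1 s).resolve_left x,
      (mul_left_eq_self₀.1 t).resolve_left x'⟩)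

end Vale.Agent.P014Z.Ra.Ct
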