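import Vale.Agent.P014Y.Mu.All0

/-!
# P014Z, block Ra: the residual count over a quadratic field (helper52)
-/

set_option autoImplicit false
set_option linter.all false

noncomputable section

namespace Vale.Agent.P014Z.Ra.Ct

open NumberField Matrix Module
open scoped Classical Pointwise
open Vale.Agent.P022 (Qb GQ)
open Vale.Agent.P027M.S (Inert)
open Vale.Agent.P022D.W (dec inP_le_dec)
open Vale.Agent.P022E.GW (Ov)
open Vale.Agent.P022K.G2 (In Lv H0 B1 d0)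
open Vale.Agent.P014U
open L2 (W M2 rh dt am a1 ai)
open X4S (Pl)
open P014Y.Mu P014Y.Mu.Li P014Y.Mu.Ul

variable [Pp] {a : GQ →* M2} {Γ D : Subgroup GQ} {T : Finset ℕ} {g c : GQ}

/-- the count over the rational numbers -/
theorem zg_dim (r : Rs a T) (n : Nf a ⊤) (pl : Pl) :
    ∑ l ∈ T, hz a (dec (pl.P l)) + 3 ≤ finrank F (Zg a T) := by
  obtain ⟨f, i⟩ := inv pl
  have q := qs0 a pl T f r i
  obtain ⟨k, π, γ, s⟩ := gs q.toQ0
  have a1 := s.fz
  have a2 := s.dim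
  have a3 := (s.lag q).dim s.sn
  rw [Finset.sum_congr rfl fun l m => dim a l _ r.toR0 (pl.ov l (r.pr l m)),
    Finset.sum_add_distrib, ← Finset.mul_sum, Finset.sum_ite_eq', if_pos r.pm] at a2
  have := Lo.zg_fin r
  have : Module.Finite F (sl (Zg a T) T fun l => Bl a (dec (pl.P l))) :=
    Submodule.finiteDimensional_of_le (S₂ := Zg a T) inf_le_left
  have a4 := Submodule.finrank_mono (show Bl a ⊤ ≤ sl (Zg a T) T fun l => Bl a (dec (pl.P l)) from
    fun x hx => mem_sl.2 ⟨Gw.b_zg r hx, fun l _ => bl_mono le_top hx⟩)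
  rw [Fin0.dim_bl n, show finrank F W = 2 from finrank_fin_fun F] at a4
  omega

/-- the twist by the sign of `Γ` -/
def sg (i : Γ.index = 2) (a : GQ →* M2) : GQ →* M2 where
  toFun g := (if g ∈ Γ then 1 else -1 : F) • a g
  map_one' := by rw [if_pos (one_mem _), one_smul, map_one]
  map_mul' g h := by
    rw [map_mul, smul_mul_smul_comm]
    by_cases p : g ∈ Γ <;> by_cases q : h ∈ Γ <;>
      simp [Subgroup.mul_mem_iff_of_index_two i, p, q]

theorem sg0 (i : Γ.index = 2) (m : g ∈ Γ) : sg i a g = a g := by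
  change (if g ∈ Γ then 1 else -1 : F) • a g = _
  rw [if_pos m, one_smul]

theorem sg1 (i : Γ.index = 2) (m : g ∉ Γ) : sg i a g = -a g := by
  change (if g ∈ Γ then 1 else -1 : F) • a g = _
  rw [if_neg m, neg_smul, one_smul]

theorem r0 (i : Γ.index = 2) (o : IsOpen (Γ : Set GQ)) (h : R0 a) : R0 (sg i a) :=
  ⟨Subgroup.isOpen_mono (H₁ := Γ ⊓ a.ker) (fun g m => (sg0 i m.1).trans m.2) (o.inter h.opn),
    h.det ▸ funext fun g => by
      show ((if g ∈ Γ then 1 else -1 : F) • a g).det = (a g).det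
      rw [det_smul, Fintype.card_fin]
      split_ifs <;> simp⟩

/-- the ramified primes carry no cohomology -/
theorem ex_t (i : Γ.index = 2) (o : IsOpen (Γ : Set GQ)) (r : Rs a T) :
    ∃ T', T ⊆ T' ∧ Rs (sg i a) T' ∧ ∀ x ∈ Zg (sg i a) T', ∀ g ∈ Γ, g ∈ In (T : Set ℕ) → x g = 0 := by
  obtain ⟨R, R1, R2⟩ := P022E.GW.Hy.ex_ram o
  have r' := r0 i o r.toR0
  refine ⟨T ∪ R.filter fun l => ∃ P, Ov l P ∧ ∃ t ∉ Γ, Inert P t, Finset.subset_union_left,
    ⟨r', Finset.mem_union_left _ r.pm, fun l m => (Finset.mem_union.1 m).elim (r.pr l)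
      fun m => R1 l (Finset.mem_filter.1 m).1, fun g ⟨l, n, P, p, q⟩ => ?_⟩,
    fun x hx g m ⟨l, n, P, p, q⟩ => ?_⟩
  · have n' := mt Finset.mem_union.2 n
    rw [sg0 i (by_contra fun z => n' (.inr (Finset.mem_filter.2
      ⟨by_contra fun w => z (R2 l w P p g q), P, p, g, z, q⟩))),
      r.unr g ⟨l, fun w => n' (.inl w), P, p, q⟩]
  by_cases k : ∃ t ∉ Γ, Inert P t
  · obtain ⟨t, t1, t2⟩ := k
    have e : hz (sg i a) (dec P) = 0 := Submodule.finrank_eq_zero.2 ((Submodule.eq_bot_iff _).2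
      fun v hv => by
        have := mem_h0.1 hv t (inP_le_dec t2)
        rw [sg1 i t1, r.unr t ⟨l, n, P, p, t2⟩, neg_mulVec, one_mulVec, neg_eq_iff_add_eq_zero,
          ← two_smul F] at this
        exact (smul_eq_zero.1 this).resolve_left two_ne)
    have d := dim _ l P r' p
    have := Lo.fin r' p
    rw [e, if_neg fun w : l = pp => n (w ▸ r.pm)] at d
    obtain ⟨v, hv⟩ := Ds.mem_bl.1 ((Submodule.Quotient.mk_eq_zero _).1
      ((Submodule.eq_bot_iff _).1 (Submodule.finrank_eq_zero.1 d) _ ⟨x, zg_cl _ hx, rfl⟩))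
    rw [hv g (inP_le_dec q), sg0 i m, r.unr g ⟨l, n, P, p, q⟩, one_mulVec, sub_self]
  · refine Lo.zg_in hx ⟨l, fun w => (Finset.mem_union.1 w).elim n fun w => k ?_, P, p, q⟩
    obtain ⟨-, Q, p', t, t1, t2⟩ := Finset.mem_filter.1 w
    obtain ⟨s, rfl⟩ := P022E.GW.Tg.trans p p'
    refine ⟨_, fun w => t1 ?_, Ds.in_sm t2⟩
    have := (Subgroup.normal_of_index_eq_two i).conj_mem _ w s
    rwa [show s * (s⁻¹ * t * s) * s⁻¹ = t by group] at this

/-- the two cocycles are determined by the sum -/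
theorem inj (i : Γ.index = 2) (n : Nf a Γ) (hc : c ∉ Γ) {x y : X} (hx : x ∈ Cl a ⊤)
    (hy : y ∈ Cl (sg i a) ⊤) (e : ∀ g ∈ Γ, x g + y g = 0) (e' : x c + y c = 0) : x = 0 ∧ y = 0 := by
  have cj : ∀ g ∈ Γ, c * g * c⁻¹ ∈ Γ := fun g m =>
    (Subgroup.normal_of_index_eq_two i).conj_mem _ m c
  have k : ∀ g ∈ Γ, x c + a c *ᵥ x g = x (c * g * c⁻¹) + a (c * g * c⁻¹) *ᵥ x c ∧
      y c - a c *ᵥ y g = y (c * g * c⁻¹) + a (c * g * c⁻¹) *ᵥ y c := fun g m => by
    have p := hx.1 (c * g * c⁻¹) trivial c trivial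
    have q := hy.1 (c * g * c⁻¹) trivial c trivial
    rw [inv_mul_cancel_right] at p q
    rw [hx.1 c trivial g trivial] at p
    rw [hy.1 c trivial g trivial, sg1 i hc, sg0 i (cj g m), neg_mulVec, ← sub_eq_add_neg] at q
    exact ⟨p, q⟩
  have x0 : ∀ g ∈ Γ, x g = 0 := fun g m => by
    obtain ⟨p, q⟩ := k g m
    have z : a c *ᵥ ((2 : F) • x g) = 0 := by
      rw [eq_neg_of_add_eq_zero_right (e g m), eq_neg_of_add_eq_zero_right e',
        eq_neg_of_add_eq_zero_right (e _ (cj g m)), mulVec_neg, mulVec_neg] at q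
      rw [two_smul, mulVec_add]
      linear_combination (exp := 1) p + q
    have := congrArg (a c⁻¹ *ᵥ ·) z
    simp only [ai, mulVec_zero] at this
    exact (smul_eq_zero.1 this).resolve_left two_ne
  have xc : x c = 0 := n _ fun g m => by
    have w : c⁻¹ * g * c ∈ Γ := by
      simpa using (Subgroup.normal_of_index_eq_two i).conj_mem _ m c⁻¹
    have := (k _ w).1
    rw [show c * (c⁻¹ * g * c) * c⁻¹ = g by group, x0 _ w, x0 g m, mulVec_zero, add_zero,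
      zero_add] at this
    exact this.symm
  have f : ∀ (b : GQ →* M2) (z : X), z ∈ Cl b ⊤ → (∀ g ∈ Γ, z g = 0) → z c = 0 → z = 0 :=
    fun b z hz z0 zc => funext fun g => by
      by_cases m : g ∈ Γ
      · exact z0 g m
      have w : g * c⁻¹ ∈ Γ := (Subgroup.mul_mem_iff_of_index_two i).2
        (iff_of_false m (mt inv_mem_iff.1 hc))
      have := hz.1 (g * c⁻¹) trivial c trivial
      rwa [inv_mul_cancel_right, z0 _ w, zc, mulVec_zero, add_zero] at this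
  exact ⟨f _ x hx x0 xc, f _ y hy (fun g m => by simpa [x0 g m] using e g m)
    (by simpa [xc] using e')⟩

theorem cut {S Y : Type} [AddCommGroup S] [Module F S] [AddCommGroup Y] [Module F Y]
    [Module.Finite F S] (f : S →ₗ[F] Y) (A : Submodule F S) (N : Submodule F Y) [Module.Finite F N]
    (h : ∀ x ∈ A, f x ∈ N) : finrank F A ≤ finrank F N + finrank F ↥(A ⊓ LinearMap.ker f) := by
  rw [fr_add f A (A ⊓ LinearMap.ker f) fun _ => Iff.rfl]
  exact Nat.add_le_add_right (Submodule.finrank_mono (Submodule.map_le_iff_le_comap.2 h)) _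

/-- **the residual count** -/
theorem res (r : Rs a T) (o : IsOpen (Γ : Set GQ)) (i : Γ.index = 2) (n : Nf a Γ) (pl : Pl)
    (sq : ∀ l ∈ T, dec (pl.P l) ≤ Γ) (u : GQ → F)
    (ua : ∀ g ∈ dec (pl.P pp), ∀ h ∈ dec (pl.P pp), u (g * h) = u g + u h)
    (uo : ∃ U, Lv ∅ U ∧ ∀ w ∈ dec (pl.P pp), w ∈ U → u w = 0) :
    ∃ (K : Type) (y : K → X) (m : K → W), pp ^ (2 * ∑ l ∈ T, hz a (dec (pl.P l))) ≤ Nat.card K ∧
      (∀ k, y k ∈ Cl a Γ ∧ (∀ g ∈ Γ, g ∈ In (T : Set ℕ) → y k g = 0) ∧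
        ∀ g ∈ dec (pl.P pp), a g *ᵥ m k = m k ∧ y k g = u g • m k) ∧
      ∀ k k', (∀ g ∈ Γ, y k g = y k' g) → m k = m k' → k = k' := by
  obtain ⟨T', le, r', un⟩ := ex_t i o r
  obtain ⟨c, hc⟩ : ∃ c, c ∉ Γ := not_forall.1 fun h => by
    rw [(Subgroup.eq_top_iff' Γ).2 h, Subgroup.index_top] at i
    omega
  have d1 := zg_dim r (fun v h => n v fun g _ => h g trivial) pl
  have d2 := zg_dim r' (fun v h => n v fun g m => sg0 (a := a) i m ▸ h g trivial) pl
  have d3 : ∑ l ∈ T, hz a (dec (pl.P l)) ≤ ∑ l ∈ T', hz (sg i a) (dec (pl.P l)) :=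
    (Finset.sum_congr rfl fun l m => congrArg (fun M : Submodule F W => finrank F M)
      (Submodule.ext fun v => by
        simp only [mem_h0]
        exact forall₂_congr fun g w => by rw [sg0 i (sq l m w)])).trans_le
      (Finset.sum_le_sum_of_subset le)
  have oP := pl.ov pp pp_prime
  have dP := sq pp r.pm
  have d4 := dim a pp _ r.toR0 oP
  have f4 := Lo.fin r.toR0 oP
  rw [if_pos rfl, dq] at d4
  generalize pl.P pp = P at *
  have f1 := Lo.zg_fin r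
  have f2 := Lo.zg_fin r'
  let S := Zg a T × Zg (sg i a) T' × H0 (dec P) (rh a) fun _ => 1
  let y : S →ₗ[F] X := (Zg a T).subtype ∘ₗ LinearMap.fst F _ _ +
    (Zg (sg i a) T').subtype ∘ₗ LinearMap.fst F _ _ ∘ₗ LinearMap.snd F _ _
  let m : S →ₗ[F] W := (H0 (dec P) (rh a) fun _ => 1).subtype ∘ₗ LinearMap.snd F _ _ ∘ₗ
    LinearMap.snd F _ _
  let φ : S →ₗ[F] X := y - LinearMap.pi fun g => u g • m
  let ρ : X →ₗ[F] dec P → W := LinearMap.funLeft F W Subtype.val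
  have hy : ∀ s, y s ∈ Cl a Γ := fun s => add_mem (zg_cl Γ s.1.2)
    (Ds.cl_congr (fun g w => (sg0 i w).symm) (fun _ _ => rfl) (zg_cl Γ s.2.1.2))
  have hm : ∀ s, ∀ g ∈ dec P, a g *ᵥ m s = m s := fun s => mem_h0.1 s.2.2.2
  have c1 := cut ((Bl a (dec P)).mkQ ∘ₗ φ) ⊤ ((Cl a (dec P)).map (Bl a (dec P)).mkQ) fun s _ =>
    ⟨_, sub_mem (Ds.cl_mono (hy s) dP) (show (fun g => u g • m s) ∈ Cl a (dec P) from
      ⟨fun g p h q => by simp only [ua g p h q, add_smul, mulVec_smul, hm s g p],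
        uo.imp fun U k => ⟨k.1, fun w p q => by simp only [k.2 w p q, zero_smul]⟩⟩), rfl⟩
  have c2 := cut (ρ ∘ₗ φ) (⊤ ⊓ LinearMap.ker ((Bl a (dec P)).mkQ ∘ₗ φ))
    (LinearMap.range (ρ ∘ₗ d0 (rh a))) fun s h =>
      ((Submodule.Quotient.mk_eq_zero _).1 h.2).imp fun v hv => funext fun g => (hv g g.2).symm
  have c3 := cut (LinearMap.proj c ∘ₗ y) (⊤ ⊓ LinearMap.ker ((Bl a (dec P)).mkQ ∘ₗ φ) ⊓
    LinearMap.ker (ρ ∘ₗ φ)) ⊤ fun _ _ => trivial
  have c4 := LinearMap.finrank_range_add_finrank_ker (ρ ∘ₗ d0 (rh a))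
  rw [show LinearMap.ker (ρ ∘ₗ d0 (rh a)) = H0 (dec P) (rh a) fun _ => 1 from Submodule.ext fun v =>
    ⟨fun h => mem_h0.2 fun g w => sub_eq_zero.1 (congrFun h ⟨g, w⟩),
      fun h => funext fun g => sub_eq_zero.2 (mem_h0.1 h g g.2)⟩] at c4
  rw [finrank_top, finrank_prod, finrank_prod] at c1
  rw [finrank_top] at c3
  rw [show finrank F W = 2 from finrank_fin_fun F] at c3 c4
  refine ⟨↥(⊤ ⊓ LinearMap.ker ((Bl a (dec P)).mkQ ∘ₗ φ) ⊓ LinearMap.ker (ρ ∘ₗ φ) ⊓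
    LinearMap.ker (LinearMap.proj c ∘ₗ y)), fun k => y k.1, fun k => m k.1, ?_,
    fun k => ⟨hy _, fun g p q => ?_, fun g p => ⟨hm _ g p,
      sub_eq_zero.1 (congrFun k.2.1.2 ⟨g, p⟩)⟩⟩, fun k k' e e' => ?_⟩
  · rw [Module.natCard_eq_pow_finrank (K := F), Nat.card_zmod]
    refine Nat.pow_le_pow_right pp_prime.pos ?_
    unfold hz at *
    omega
  · exact (congrArg₂ _ (Lo.zg_in k.1.1.2 q) (un _ k.1.2.1.2 g p q)).trans (add_zero _)
  · have s : y (k.1 - k'.1) c = 0 := by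
      rw [map_sub]
      exact sub_eq_zero.2 (k.2.2.trans k'.2.2.symm)
    obtain ⟨p, q⟩ := inj i n hc (zg_cl ⊤ (k.1 - k'.1).1.2) (zg_cl ⊤ (k.1 - k'.1).2.1.2)
      (fun g w => show y (k.1 - k'.1) g = 0 by rw [map_sub]; exact sub_eq_zero.2 (e g w)) s
    exact Subtype.ext (sub_eq_zero.1 (Prod.ext (Subtype.ext p) (Prod.ext (Subtype.ext q)
      (Subtype.ext (show m (k.1 - k'.1) = 0 by rw [map_sub]; exact sub_eq_zero.2 e')))))

end Vale.Agent.P014Z.Ra.Ct
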