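import Vale.Agent.P014Z.St
import Vale.Agent.P014Z.Rp.Gdr0
import Vale.Agent.P014Z.Ra.Du1
import Vale.Agent.P014Y.Mu.Rse
import Vale.Agent.P014Z.Inr

/-!
# P014Z, block Ra: the places at which the two characters are trivial (helper15)
-/

set_option autoImplicit false
set_option linter.all false

open NumberField Matrix Module
open scoped Classical

noncomputable section

namespace Vale.Agent.P014Z.Ra.Dc

open Vale.Agent.P022 (Qb GQ)
open Vale.Agent.P027M.S (Inert)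
open Vale.Agent.P022D.W (dec exists_phi inP_le_dec)
open Vale.Agent.P022E.GW (Ov Fb)
open Vale.Agent.P022K.G2 (oz om H0 mem_Gz inert_gz)
open Vale.Agent.P014U
open P014Y.F (Crv Fld)
open P014Y.Mu (F rb Nf hz)
open P014Y.Bo (dg dg_mv)
open Ml (Tri)
open Gl (Ch Da Lz cs pa)

variable [Pp] {e : Crv} (D : Da e) {η η' : Ch} {g φ : GQ} {l : ℕ} {P : Ideal (𝓞 Qb)} {T : Finset ℕ}

theorem ne0 (η : Ch) (g : GQ) : η g ≠ 0 :=
  left_ne_zero_of_mul_eq_one (b := η g⁻¹) (by rw [← map_mul, mul_inv_cancel, map_one])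

theorem pa1 (η η' : Ch) : pa η η' 1 = dg η η' := by
  have : η ^ (1 + (pp - 2) * 1) = 1 := MonoidHom.ext fun g => by
    have := one_lt
    rw [MonoidHom.pow_apply, show 1 + (pp - 2) * 1 = pp - 1 by omega]
    exact ZMod.pow_card_sub_one_eq_one (ne0 η g)
  rw [pa, this, mul_one, pow_one]

theorem dg1 (h : η g = 1) (h' : η' g = 1) : dg η η' g = 1 := by
  ext i j; fin_cases i <;> fin_cases j <;> simp [dg, h, h']

theorem of (h : rb e g = 1) : D.η g = 1 ∧ D.η' g = 1 := by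
  have k : ∀ {α δ : GQ → F}, Tri ⊤ (rb e) α δ → α g = 1 ∧ δ g = 1 := fun ⟨C, C', c, t⟩ => by
    obtain ⟨-, a, d⟩ := t g trivial
    rw [h, mul_one, mul_eq_one_comm.1 c] at a d
    exact ⟨a.symm.trans (one_apply_eq _), d.symm.trans (one_apply_eq _)⟩
  exact D.ec.tri.elim k fun t => (k t).symm

theorem opn : IsOpen (D.η.ker : Set GQ) ∧ IsOpen (D.η'.ker : Set GQ) :=
  ⟨Subgroup.isOpen_mono (fun _ m => (of D m).1) (P014Y.Mu.Re.r0 e).opn,
    Subgroup.isOpen_mono (fun _ m => (of D m).2) (P014Y.Mu.Re.r0 e).opn⟩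

/-- the split plane -/
theorem rs (r : P014Y.Mu.Rs (rb e) T) : P014Y.Mu.Rs (dg D.η D.η') T :=
  ⟨⟨Subgroup.isOpen_mono (fun _ m => dg1 (of D m).1 (of D m).2) r.opn, funext fun g => by
    simp [L2.dt, dg, om, D.ec.det]⟩, r.pm, r.pr,
    fun g m => dg1 (of D (r.unr g m)).1 (of D (r.unr g m)).2⟩

theorem fb (o : Ov l P) (n : ¬ l ∣ D.f) (f : Fb l P φ) : D.η φ = D.ψ l :=
  D.dc.eq φ l fun _ h => P014T.Dr.root_cong o n f h

theorem ine (o : Ov l P) (n : ¬ l ∣ D.f) (i : Inert P g) : D.η g = 1 :=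
  (D.dc.eq g 1 fun _ h => P014T.Dr.root_cong o n (fun x => by rw [pow_one]; exact i x) h).trans
    (by rw [Nat.cast_one, map_one])

theorem nd (hl : l.Prime) (h : D.ψ l ≠ 0) : ¬ l ∣ D.f := fun d => h (D.ψ.map_nonunit fun u =>
  (Nat.Prime.coprime_iff_not_dvd hl).1 ((ZMod.isUnit_iff_coprime _ _).1 u) d)

theorem snd (h : D.η g = oz pp g) : D.η' g = 1 :=
  mul_left_cancel₀ (ne0 D.η g) (by rw [D.ec.det, h, mul_one])

theorem one (o : Ov l P) (h : D.ψ l = 1) : ∀ g ∈ dec P, D.η g = 1 := by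
  have n := nd D o.1 (h ▸ one_ne_zero)
  obtain ⟨φ, f⟩ := exists_phi o.1 o.2.1 o.2.2
  exact P004S.lt.dec_le o f (opn D).1 ((fb D o n f).trans h) fun i => ine D o n

theorem two (o : Ov l P) (p : l ≠ pp) (h : D.ψ l = l) : ∀ g ∈ dec P, D.η' g = 1 := by
  have n := nd D o.1 (h ▸ fun z => p ((Nat.prime_dvd_prime_iff_eq pp_prime o.1).1
    ((ZMod.natCast_eq_zero_iff _ _).1 z)).symm)
  obtain ⟨φ, f⟩ := exists_phi o.1 o.2.1 o.2.2
  exact P004S.lt.dec_le o f (opn D).2 (snd D (((fb D o n f).trans h).trans (D1.oz_fb o p f).symm))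
    fun i m => snd D ((ine D o n m).trans (mem_Gz.1 (inert_gz o p m)).symm)

variable (b : Fld e)

/-- `η` is not trivial on the quadratic field -/
theorem n1 : ∃ g ∈ b.Γ, D.η g ≠ 1 := by
  by_contra! h
  obtain ⟨-, -, -, -, -, -, ⟨t, t0, t1⟩, -⟩ := (P014Y.Mu.rse e).2.2 b
  have a : ∀ g, D.η g = 1 := fun g => by
    by_cases m : g ∈ b.Γ
    · exact h g m
    have := h (g * t) ((Subgroup.mul_mem_iff_of_index_two (P014Y.Rd.Gr.idx b.iq)).2 (iff_of_false m t0))
    rwa [map_mul, (of D (P014Y.Mu.Re.of e t1)).1, mul_one] at this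
  have u : D.ψ = 1 := MulChar.eq_one_iff.2 fun x => by
    obtain ⟨q, q1, hq, k⟩ := Nat.forall_exists_prime_gt_and_eq_mod x.isUnit D.f
    obtain ⟨P, o⟩ := P004R.Mu.ex_pl hq
    obtain ⟨φ, f⟩ := exists_phi hq o.2.1 o.2.2
    rw [← k, ← fb D o (Nat.not_dvd_of_pos_of_lt (one_pos.trans D.dc.one) q1) f, a]
  have c := (DirichletCharacter.isPrimitive_def _).1 D.dc.prim
  rw [u, DirichletCharacter.conductor_one] at c
  exact D.dc.one.ne c

theorem n2 : ∃ g ∈ b.Γ, D.η' g ≠ 1 := by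
  obtain ⟨t, i, k⟩ := Inr.oz_in (e.ov pp e.pm) (neg_ne_zero.2 (one_ne_zero (α := F)))
  refine ⟨t, b.le pp e.pm (P004S.inert_dec i), fun h => ?_⟩
  have d := D.ec.det t
  rw [h, D.ec.ine _ t (e.ov pp e.pm) i, k, D.ec.ev.neg_one_pow] at d
  exact two_ne (by linear_combination d)

/-- no fixed vector -/
theorem nf : Nf (dg D.η D.η') b.Γ := fun v h => by
  obtain ⟨g, m, n⟩ := n1 D b
  obtain ⟨g', m', n'⟩ := n2 D b
  have a := congrFun ((dg_mv _ _ g v).symm.trans (h g m)) 0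
  have a' := congrFun ((dg_mv _ _ g' v).symm.trans (h g' m')) 1
  funext i
  fin_cases i
  · exact by_contra fun z => n (mul_right_cancel₀ z (a.trans (one_mul _).symm))
  · exact by_contra fun z => n' (mul_right_cancel₀ z (a'.trans (one_mul _).symm))

variable {b} {n c : ℕ} {χ : GQ → ZMod (pp ^ (n + 1))} {γ : GQ}

/-- the places above `c` are free -/
theorem fr (lz : Lz b D.η n c χ γ) (o : Ov l P) (d : l ∣ c) (m : g ∈ dec P) :
    D.η g = 1 ∧ D.η' g = 1 := by
  have a : D.η g = 1 := (lz.hc l P o d m).2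
  have k : l % pp = 1 := Eq.trans ((lz.ly.out l o.1 d).2.2.of_dvd (dvd_pow_self pp n.succ_ne_zero))
    (Nat.mod_eq_of_lt one_lt)
  exact ⟨a, snd D (a.trans (Rp.Gr.dec_oz o k m).symm)⟩

/-- **the two sets of primes** -/
theorem ab (lz : Lz b D.η n c χ γ) : ∃ A B : Finset ℕ, A ⊆ e.S.toFinset ∪ c.primeFactors ∧
    B ⊆ e.S.toFinset ∪ c.primeFactors ∧ (∀ l ∈ A, ∀ Q, Ov l Q → ∀ g ∈ dec Q, D.η g = 1) ∧
    (∀ l ∈ B, ∀ Q, Ov l Q → ∀ g ∈ dec Q, D.η' g = 1) ∧
    A.card + B.card = 2 * c.primeFactors.card + cs D.ψ e.S := by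
  have d : ∀ (p : ℕ → Prop) [DecidablePred p], (e.S.toFinset.filter p ∪ c.primeFactors).card =
      (e.S.filter fun l => p l).length + c.primeFactors.card := fun p _ => by
    rw [Finset.card_union_of_disjoint (Finset.disjoint_right.2 fun q a m =>
      (lz.ly.out q (Nat.prime_of_mem_primeFactors a) (Nat.dvd_of_mem_primeFactors a)).1
        (Finset.mem_filter.1 m).1), ← List.toFinset_card_of_nodup (e.nd.filter _),
      List.toFinset_filter]
    simp only [decide_eq_true_eq]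
  refine ⟨e.S.toFinset.filter (fun l => D.ψ l = 1) ∪ c.primeFactors,
    e.S.toFinset.filter (fun l => l ≠ pp ∧ D.ψ l = l) ∪ c.primeFactors,
    Finset.union_subset_union (Finset.filter_subset _ _) subset_rfl,
    Finset.union_subset_union (Finset.filter_subset _ _) subset_rfl, fun l m Q o g k => ?_,
    fun l m Q o g k => ?_, ?_⟩
  · exact (Finset.mem_union.1 m).elim (fun m => one D o (Finset.mem_filter.1 m).2 g k)
      fun m => (fr D lz o (Nat.dvd_of_mem_primeFactors m) k).1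
  · exact (Finset.mem_union.1 m).elim
      (fun m => two D o (Finset.mem_filter.1 m).2.1 (Finset.mem_filter.1 m).2.2 g k)
      fun m => (fr D lz o (Nat.dvd_of_mem_primeFactors m) k).2
  · rw [d, d, cs]
    ring

theorem hz_le (U : Subgroup GQ) (s t : Prop) [Decidable s] [Decidable t]
    (h : s → ∀ g ∈ U, η g = 1) (h' : t → ∀ g ∈ U, η' g = 1) :
    (if s then 1 else 0) + (if t then 1 else 0) ≤ hz (dg η η') U := by
  have k : ∀ v : Fin 2 → F, v ≠ 0 → v ∈ H0 U (L2.rh (dg η η')) (fun _ => 1) → 1 ≤ hz (dg η η') U :=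
    fun v n m => Submodule.one_le_finrank_iff.2 fun z => n (by rwa [z] at m)
  split_ifs with p q q
  · rw [hz, show H0 U (L2.rh (dg η η')) (fun _ => 1) = ⊤ from eq_top_iff.2 fun v _ g m => by
      rw [one_smul]; show dg η η' g *ᵥ v = v; rw [dg1 (h p g m) (h' q g m), one_mulVec]]
    simp
  · exact k ![1, 0] (by simp) fun g m => by
      rw [one_smul]; exact (dg_mv _ _ _ _).trans (by simp [h p g m])
  · exact k ![0, 1] (by simp) fun g m => by
      rw [one_smul]; exact (dg_mv _ _ _ _).trans (by simp [h' q g m])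
  · exact Nat.zero_le _

/-- **the dictionary** -/
theorem dic (lz : Lz b D.η n c χ γ) (P : ℕ → Ideal (𝓞 Qb))
    (o : ∀ l ∈ e.S.toFinset ∪ c.primeFactors, Ov l (P l)) :
    2 * c.primeFactors.card + cs D.ψ e.S ≤
      ∑ l ∈ e.S.toFinset ∪ c.primeFactors, hz (dg D.η D.η') (dec (P l)) := by
  obtain ⟨A, B, a, b, p, q, k⟩ := ab D lz
  rw [← k, ← Finset.inter_eq_right.2 a, ← Finset.inter_eq_right.2 b, ← Finset.filter_mem_eq_inter,
    ← Finset.filter_mem_eq_inter, Finset.card_filter, Finset.card_filter, ← Finset.sum_add_distrib]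
  exact Finset.sum_le_sum fun l m => hz_le _ _ _ (fun x => p l x _ (o l m)) fun x => q l x _ (o l m)

end Vale.Agent.P014Z.Ra.Dc
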