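import Vale.Agent.P014Z.Ra.St
import Vale.Agent.P014Z.Ra.Du0
import Vale.Agent.P014Y.Rd.Recs

/-! # P014Z, block Ra: rows `ORT`, `DU` (helper16) -/

set_option autoImplicit false
set_option linter.all false

namespace Vale.Agent.P014Z.Ra

open Vale.Agent.P014U Vale.Agent.P022K.G2

variable [Pp]

/-- **ORT** -/
theorem ort : ORT := fun _ _ _ _ h _ _ w A B => Or.ort h w A B

/-- **DU** -/
theorem du (du1 : DU1) : DU := by
  intro R _ ρ J tq J0 Γ W T U χ χ' P γ hγ G G' oP sp cy oW nW lW tW ij hU hl fin' fin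
  classical
  refine Du.du P014Y.Rd.recs tq hγ (.of G.toGd G.pm) (.of G'.toGd G'.pm) oP cy oW nW lW tW ij fin'
    (Finset.union_empty T ▸ fin ∅ (by simp)) _
    (fun y m l a b Q q => (m l a b Q q).imp fun _ h g _ => h g) _ fun L hL => ?_
  have u : T ⊆ T ∪ L := Finset.subset_union_left
  refine du1 R ρ J tq J0 Γ (T ∪ L) U L χ P ⟨⟨G.opn, G.idx, G.cx, u G.two,
      fun l m => (Finset.mem_union.1 m).elim (G.pr l) fun m => (hL l m).2.1, G.one, G.mul, G.lc,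
      fun g a ⟨l, n, k⟩ => G.unr g a ⟨l, fun m => n (u m), k⟩⟩, u G.pm⟩ oP (sp _ G.pm P oP)
    (Finset.disjoint_left.2 fun l a b => (hL l b).1 (hU l a).1)
    (fun l m => (Finset.mem_union.1 m).elim (fun m => ⟨u (hU l m).1,
      (hU l m).2.1, fun Q q => ⟨sp l (hU l m).1 Q q, (hU l m).2.2 Q q⟩⟩) fun m =>
      ⟨Finset.mem_union_right _ m, fun e => (hL l m).1 (e ▸ G.pm), fun Q q =>
        ⟨((hL l m).2.2.2 Q q).trans lW, fun g k => by
          simp [tW g ((hL l m).2.2.2 Q q k)]⟩⟩)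
    (fun l m => ⟨?_, fun Q q g k => (tW g ((hL l m).2.2.2 Q q k)).1⟩)
    (hl.imp_right fun ⟨l, a, b, c, Q, q, r⟩ => ⟨l, u a, b, fun m =>
      (Finset.mem_union.1 m).elim c fun m => (hL l m).1 a, Q, q, sp l a Q q, r⟩)
  rw [← ((Nat.modEq_iff_dvd' (hL l m).2.1.pos).2 (hL l m).2.2.1 :), Nat.mod_eq_of_lt pp_prime.one_lt]

end Vale.Agent.P014Z.Ra
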