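import Vale.Agent.P014Z.Ml.Mul
import Vale.Agent.P014Z.Rp.Gdr0
import Vale.Agent.P014Y.Rk.Rae
import Vale.Agent.P014Y.Mu.Cnt

/-!
# P014Z, block Ra: from the split plane to the extension, in the words of the frame (helper58)
-/

set_option autoImplicit false
set_option linter.all false

open NumberField Matrix
open scoped Pointwise PowerSeries

noncomputable section

namespace Vale.Agent.P014Z.Ra.Fr

open Vale.Agent.P022 Vale.Agent.P014U Vale.Agent.P014Y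
open Vale.Agent.P022D.W (dec)
open Vale.Agent.P022E.GW (Ov Fb)
open Vale.Agent.P022K.G2 (In)
open P004F.Pr (ac)
open L2 (W M2)
open X4F (Rb)
open Mu (F Zx Ly tb ag)
open Bo (dg)
open Rd (Flg)
open Ml

variable [Pp]

/-- the model ring -/
abbrev rq (J : ℕ) : (ZMod pp)⟦X⟧ →+* Rb J := Ideal.Quotient.mk _

theorem tq (J : ℕ) : Tq (rq J) J :=
  ⟨Ideal.Quotient.mk_surjective, fun _ => Ideal.Quotient.eq_zero_iff_mem.trans Ideal.mem_span_singleton⟩

variable {a : GQ →* M2} {θ θ' : GQ →* F} {v : W} {Γ : Subgroup GQ} {S T : Finset ℕ} {J N c n : ℕ}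
  {χ : GQ → ZMod n} {P : Ideal (𝓞 Qb)}

theorem ag_eq (a : GQ →* M2) (J : ℕ) (χ : GQ → ZMod n) :
    ag a J (fun g => (χ g).val) = r2 (rq J) (ch (rq J) χ) a := funext fun g => by
  rw [ag, r2, ch, map_add, map_one]

theorem zx_eq (le : dec P ≤ Γ) : Nat.card (Zx a Γ T J (fun g => (χ g).val) P) =
    Nat.card (Z0 Γ T (r2 (rq J) (ch (rq J) χ) a) P) := by
  rw [Rd.Ml.zs, Zx, ag_eq]
  exact Nat.card_congr (Equiv.subtypeEquivRight fun x => ⟨fun k => ⟨k.1.coc, k.1.out, k.1.lc, k.1.unr,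
    fun g m => k.2 g m.2⟩, fun k => ⟨⟨k.1, k.2.1, k.2.2.1, k.2.2.2.1⟩,
      fun g m => k.2.2.2.2 g ⟨le m, m⟩⟩⟩)

theorem zx_dg (le : dec P ≤ Γ) : Nat.card (Zx (dg θ θ') Γ T J (fun g => (χ g).val) P) =
    Nat.card (Zr Γ T (tw (rq J) θ (ch (rq J) χ)) P) *
      Nat.card (Zr Γ T (tw (rq J) θ' (ch (rq J) χ)) P) := by
  rw [zx_eq le, Rd.Ml.zs, Rd.Ml.zs, Rd.Ml.zs]
  refine Rd.Ml.split ⟨⟨fun z => (fun _ => z 0, fun _ => z 1), fun w => ![w.1 0, w.2 0],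
    fun z => funext fun i => by fin_cases i <;> rfl, fun w => Prod.ext
      (funext fun i => by fin_cases i; rfl) (funext fun i => by fin_cases i; rfl)⟩,
    fun _ _ => rfl⟩ fun g _ z => Prod.ext (funext fun i => ?_) (funext fun i => ?_) <;>
  simp [ac, r1, r2, tw, dg, Fin.eq_zero i, mul_comm]

theorem zx_sw (le : dec P ≤ Γ) : Nat.card (Zx (dg θ θ') Γ T J (fun g => (χ g).val) P) =
    Nat.card (Zx (dg θ' θ) Γ T J (fun g => (χ g).val) P) := by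
  rw [zx_dg le, zx_dg le, mul_comm]

/-- the triangular form -/
theorem tri (l : Flg a θ θ' v) (Γ : Subgroup GQ) : Tri Γ a θ' θ := by
  obtain ⟨x, y, e⟩ : ∃ x y, x * v 1 - v 0 * y = 1 := by
    by_cases c : v 1 = 0
    · exact ⟨0, -(v 0)⁻¹, by
        rw [zero_mul, zero_sub, mul_neg, neg_neg, mul_inv_cancel₀ fun d => l.ne (funext
          (Fin.forall_fin_two.2 ⟨d, c⟩))]⟩
    · exact ⟨(v 1)⁻¹, 0, by rw [mul_zero, sub_zero, inv_mul_cancel₀ c]⟩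
  refine ⟨!![x, v 0; y, v 1], !![v 1, -v 0; -y, x], ?_, fun g _ => ?_⟩
  · rw [mul_fin_two, one_fin_two]; congr <;> first | ring1 | linear_combination e
  have h := l.ev g
  have t := l.tr g
  simp only [funext_iff, Fin.forall_fin_two, mulVec, dotProduct, Fin.sum_univ_two, Pi.smul_apply,
    smul_eq_mul] at h
  rw [trace_fin_two] at t
  refine ⟨?_, ?_, ?_⟩ <;> simp [mul_apply, vecMul, dotProduct]
  · linear_combination v 1 * h.1 - v 0 * h.2
  · linear_combination y * h.1 - x * h.2 + (a g 0 0 + a g 1 1 - θ g) * e + t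
  · linear_combination x * h.2 - y * h.1 + θ g * e

theorem ge_mono {R m : Type} [CommRing R] [Fintype m] [DecidableEq m] {b : GQ → Matrix m m R}
    (G : F.Gd Γ S b) (c : ℕ) : Ge Γ (S ∪ c.primeFactors) b :=
  ⟨G.opn, G.idx, G.cx, Finset.mem_union_left _ G.pm, fun l m => (Finset.mem_union.1 m).elim (G.pr l)
    Nat.prime_of_mem_primeFactors, G.one, G.mul, G.lc, fun g a ⟨l, n, k⟩ =>
      G.unr g a ⟨l, fun m => n (Finset.mem_union_left _ m), k⟩⟩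

theorem ge_ch {R m : Type} [CommRing R] [Fintype m] [DecidableEq m] {b : GQ → Matrix m m R}
    (G : F.Gd Γ S b) (y : Ly Γ S N c fun g => (χ g).val) (hJ : J ≤ pp ^ N) :
    Ge Γ (S ∪ c.primeFactors) (r1 (ch (rq J) χ)) := by
  have H := ge_mono G c
  have pw : (1 + tt (rq J)) ^ pp ^ N = 1 := Rp.Gr.pw (tq J).ker hJ
  have z : ∀ g, pp ^ N ∣ (χ g).val → r1 (ch (rq J) χ) g = 1 := fun g ⟨t, d⟩ => by
    rw [r1, ch, d, pow_mul, pw, one_pow, one_smul]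
  refine ⟨H.opn, H.idx, H.cx, H.pm, H.pr, z 1 ?_, fun g m h m' => ?_,
    y.opn.imp fun U k => ⟨k.1, fun w a b => z w (k.2 w a b)⟩, fun g m ⟨l, k, Q, o, i⟩ =>
      z g (y.unr l Q o (fun d => k (Finset.mem_union_right _
        (Nat.mem_primeFactors.2 ⟨o.1, d, y.c0⟩))) g m i)⟩
  · obtain ⟨U, -, k⟩ := y.opn
    exact k 1 (one_mem _) (one_mem _)
  · have := y.add g m h m'
    refine P004R.Db.r1_mul.2 ?_
    simp only [ch]
    rw [pow_eq_pow_mod _ pw, show (χ (g * h)).val % pp ^ N = _ from this,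
      ← pow_eq_pow_mod _ pw, pow_add]

/-- **the group of the extension and the group of the split plane** -/
theorem mz (l : Flg a θ θ' v) (G : F.Gd Γ S a) (y : Ly Γ S N c fun g => (χ g).val) (o : Ov pp P)
    (fr : ∃ s ∈ S, s ≠ pp ∧ ∃ Q, Ov s Q ∧ ∀ g ∈ dec Q, a g = 1) (J0 : 0 < J) (hJ : J ≤ pp ^ N) :
    Nat.card (Zx a Γ (S ∪ c.primeFactors) J (fun g => (χ g).val) P) ≤
      Nat.card (Zx (dg θ θ') Γ (S ∪ c.primeFactors) J (fun g => (χ g).val) P) ∧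
    ∀ B, 2 * B ≤ J →
      Nat.card (Zx (dg θ θ') Γ (S ∪ c.primeFactors) J (fun g => (χ g).val) P) ≤ pp ^ B →
      Nat.card (Zx (dg θ θ') Γ (S ∪ c.primeFactors) J (fun g => (χ g).val) P) ≤
        Nat.card (Zx a Γ (S ∪ c.primeFactors) J (fun g => (χ g).val) P) := by
  have le := (y.fro pp G.pm P o).1
  obtain ⟨s, m, n, Q, q, k⟩ := fr
  have rt : ∀ α : GQ →* F, (∀ g ∈ dec Q, α g = 1) → Rt (rq J) (tw (rq J) α (ch (rq J) χ)) Q :=
    fun α h g d => by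
      rw [tw, h g d, map_one, map_one, one_mul]
      exact Rp.Gr.dv0 _ _
  rw [zx_sw le, zx_dg le, zx_eq le]
  exact (mul _ _ J (tq J) J0 Γ _ _ a θ' θ P (ge_ch G y hJ) (ge_mono G c) (tri l Γ) o le
    (.inr ⟨s, Finset.mem_union_left _ m, n, Q, q, (y.fro s m Q q).1,
      rt θ' fun g d => (Rk.flg_one l (k g d)).2, rt θ fun g d => (Rk.flg_one l (k g d)).1⟩)).2

theorem zx_zm (a : GQ →* M2) (Γ T J χ P) :
    Zx a Γ T J χ P = Mu.Ap.Zm Γ T (Mu.Ap.aL a χ) P (Rb J) := by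
  have a : ∀ g (y : Fin 2 → Rb J), ac (ag a J χ g) y = ac (Mu.Ap.aL a χ g) y := fun g y => by
    rw [ag, ← map_pow]; rfl
  exact Set.ext fun x => and_congr_left fun _ =>
    ⟨fun k => ⟨fun g m h n => a g _ ▸ k.coc g m h n, k.out, k.lc, k.unr⟩,
      fun k => ⟨fun g m h n => (a g _).symm ▸ k.coc g m h n, k.out, k.lc, k.unr⟩⟩

/-- bounded exponent gives bounded order -/
theorem bd (G : F.Gd Γ S a) (k i : ℕ) : ∃ B : ℕ, ∀ (T : Finset ℕ) χ P J, (∀ l ∈ T, l.Prime) →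
    T.card ≤ k → (∀ x ∈ Zx a Γ (S ∪ T) J χ P, ∀ g, tb J ^ i • x g = 0) →
    Nat.card (Zx a Γ (S ∪ T) J χ P) ≤ pp ^ B := by
  obtain ⟨B, hB⟩ := Mu.Ap.bound G k i
  refine ⟨B, fun T χ P J pr le => ?_⟩
  obtain ⟨f, h⟩ := hB T χ P pr le
  simp only [zx_zm]
  exact fun k => (Mu.Ap.le_of (a := Mu.Ap.aL a χ) i J fun x m => funext₂ fun g s => by
    have := congrFun (k x m g) s
    rwa [tb, ← map_pow] at this).2.trans h

theorem gd_dg (l : Flg a θ θ' v) (G : F.Gd Γ S a) : F.Gd Γ S (dg θ θ') ∧ F.Gd Γ S (dg θ' θ) :=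
  have k : ∀ {g}, a g = 1 → dg θ' θ g = 1 := fun h =>
    Rk.dg_on1 (Rk.flg_one l h).2 (Rk.flg_one l h).1
  ⟨⟨⟨G.opn, G.idx, G.cx, G.two, G.pr, map_one _, fun g _ h _ => map_mul _ g h,
    G.lc.imp fun W k => ⟨k.1, fun w a m => Rk.flg_ker l (k.2 w a m)⟩,
    fun g a m => Rk.flg_ker l (G.unr g a m)⟩, G.pm⟩,
  ⟨⟨G.opn, G.idx, G.cx, G.two, G.pr, map_one _, fun g _ h _ => map_mul _ g h,
    G.lc.imp fun W s => ⟨s.1, fun w a m => k (s.2 w a m)⟩, fun g a m => k (G.unr g a m)⟩, G.pm⟩⟩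

theorem zero_le (a : GQ →* M2) (Γ T χ P) : Nat.card (Zx a Γ T 0 χ P) ≤ 1 := by
  have : Subsingleton (Rb 0) := Ideal.Quotient.subsingleton_iff.2 (by simp)
  exact Finite.card_le_one_iff_subsingleton.2 inferInstance

end Vale.Agent.P014Z.Ra.Fr
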