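import Vale.Agent.P014Z.Ra.St
import Vale.Agent.P014Z.Ra.Lex0

/-!
# P014Z, block Ra: rows FIN and LEX (helper27)
-/

set_option autoImplicit false
set_option linter.all false

open NumberField PowerSeries

noncomputable section

namespace Vale.Agent.P014Z.Ra

open Vale.Agent.P022 Vale.Agent.P014U
open Lx

variable [Pp]

namespace Lx

variable {R : Type} [CommRing R] {ρ : (ZMod pp)⟦X⟧ →+* R} {J : ℕ}

/-- the residue map -/
theorem ex_pi (h : Tq ρ J) (l : 0 < J) : ∃ π : R →+* ZMod pp, (∀ x, π (ρ x) = constantCoeff x) ∧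
    ∀ x, tt ρ ∣ x - ρ (C (π x)) := by
  let π := ρ.liftOfSurjective h.sur ⟨constantCoeff, fun x m =>
    X_dvd_iff.1 ((dvd_pow_self X l.ne').trans ((h.ker x).1 m))⟩
  have e : ∀ x, π (ρ x) = constantCoeff x := fun x => ρ.liftOfSurjective_comp_apply h.sur _ x
  refine ⟨π, e, fun x => ?_⟩
  obtain ⟨p, rfl⟩ := h.sur x
  rw [e, ← map_sub]
  exact map_dvd ρ (X_dvd_iff.2 (by simp))

end Lx

theorem fin : FIN := by
  intro R _ ρ J h Γ T χ P hG
  rcases J.eq_zero_or_pos with rfl | l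
  · have : ∀ x : R, x = 0 := fun x => by
      obtain ⟨p, rfl⟩ := h.sur x
      exact (h.ker p).2 (by simp)
    have : Subsingleton (Zr Γ T χ P) := ⟨fun z w => ext fun g => (this _).trans (this _).symm⟩
    infer_instance
  obtain ⟨π, -, d⟩ := ex_pi h l
  have k := (P014Y.Pr.Ge.of hG.toGd hG.pm).map π
  rw [show (fun g => (r1 χ g).map π) = r1 fun g => π (χ g) from funext fun g =>
    Matrix.ext fun i j => by simp [r1, Subsingleton.elim i j]] at k
  have : Finite (Zr Γ T (fun g => π (χ g)) P) := P014Y.Pr.zs_fin k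
  exact (card h fun g _ => d (χ g)).1

theorem lex : LEX := by
  intro Γ S α hα k
  obtain ⟨C, hC⟩ := res (.of hα.toGd hα.pm) k
  refine ⟨C, fun T R _ ρ J χ P hk h hG d => ?_⟩
  obtain ⟨f0, f3⟩ := hC T P hk fun l m => hG.pr l (Finset.mem_union_right _ m)
  obtain ⟨a, b⟩ := card (T := S ∪ T) (P := P) h d
  refine ⟨a, fun i m => (b i m).trans ?_, fun i m z hz g => kill m (fun r l a a' Q o =>
    (hz l a a' Q o).elim fun y e => ⟨r * y, fun g hg => ?_⟩) g,
    fun m R' _ ρ' J' χ' h' l _ d' => ?_⟩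
  · rw [pow_mul]
    exact Nat.pow_le_pow_left f3 i
  · show r * z.1.1 g 0 = _
    rw [e g hg, mul_left_comm]
  · obtain ⟨f, hf⟩ := Lx.lift (T := S ∪ T) (P := P) h' l d'
    have := (card (T := S ∪ T) (P := P) h' d').1
    exact (b 1 m).trans ((pow_one _).trans_le (Nat.card_le_card_of_injective f hf))

end Vale.Agent.P014Z.Ra
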