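import Vale.Agent.P014Z.Ra.St
import Vale.Agent.P014Z.Ra.Loi0
import Vale.Agent.P022K.G2.Tam

/-!
# P014Z, block Ra: the rows LO1 and LOI
-/

set_option autoImplicit false
set_option linter.all false

open NumberField
open scoped Pointwise PowerSeries

noncomputable section

namespace Vale.Agent.P014Z.Ra

open Vale.Agent.P022 Vale.Agent.P014U
open Vale.Agent.P027M.S (Inert)
open Vale.Agent.P022D.W (dec inP_le_dec conj_inP phi_mem dec_gen exists_phi)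
open Vale.Agent.P022.H443 (inP)
open Vale.Agent.P022E.GW (Ov Fb)
open Vale.Agent.P022K.CH.Loc (WMod chi_data exists_tau)
open Vale.Agent.P014Y.Rd.Li (Cc Tg move)
open Vale.Agent.P022K.G2

variable [Pp]

namespace Li

variable {R : Type} [CommRing R] {ρ : (ZMod pp)⟦X⟧ →+* R} {J : ℕ} {V Γ : Subgroup GQ}
  {χ z : GQ → R} {g : GQ} {l : ℕ} {Q : Ideal (𝓞 Qb)} {τ φ : GQ}

theorem oz_fb (o : Ov l Q) (n : l ≠ pp) (f : Fb l Q φ) : oz pp φ = l := by
  let ζ : 𝓞 Qb := ⟨zt pp, (zt_prim pp).isIntegral pp_pos⟩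
  have e : ζ ^ pp = 1 := RingOfIntegers.ext zt_pow
  refine pw_inj ((oz_spec φ).symm.trans (Eq.trans ?_ (pw_nat l).symm))
  exact congrArg Subtype.val (P022E.GW.Unr.root_inj o.2.1 (p_notMem o n)
    (by rw [← smul_pow', e, smul_one]) (by rw [← pow_mul, mul_comm, pow_mul, e, one_pow]) (f ζ))

theorem oz_pow (g : GQ) (k : ℕ) : oz pp (g ^ k) = oz pp g ^ k := by simp [oz]

theorem Hy.val (H : Hy l Q τ φ V χ z) (un : Un Q χ) (n : l ≠ pp) (a : g ∈ dec Q) :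
    ∃ k m : ℕ, χ g = χ φ ^ k * χ τ ^ m ∧ oz pp g = (l : ZMod pp) ^ k := by
  obtain ⟨k, s, u, hs, hu, e⟩ :=
    dec_gen H.ov.1 H.ov.2.1 H.ov.2.2 H.fb a (V ⊓ Gz pp) (H.opn.inter Gz_open)
  have f := (dec Q).pow_mem H.fm k
  have um : u ∈ dec Q := by
    have := mul_mem (mul_mem a (inv_mem (inP_le_dec hs))) (inv_mem f)
    rwa [e, mul_inv_cancel_right, mul_inv_cancel_right] at this
  obtain ⟨m, b, -⟩ := H.tame un hs
  refine ⟨k, m, ?_, ?_⟩
  · rw [e, H.cc.mul _ (mul_mem um f) _ (inP_le_dec hs), H.cc.mul _ um _ f, (H.cc.tr u um hu.1).1,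
      (H.cc.pw H.fm k).1, b, one_mul]
  · rw [e, oz_mul, oz_mul, mem_Gz.1 hu.2, mem_Gz.1 (inert_gz H.ov n hs), oz_pow,
      oz_fb H.ov n H.fb, one_mul, mul_one]

theorem dv {y a b c : R} (h : y ∣ a - c) (h' : y ∣ b - 1) (k m : ℕ) : y ∣ a ^ k * b ^ m - c ^ k := by
  have := (((h'.trans (sub_one_dvd_pow_sub_one b m)).mul_left (a ^ k))).add
    (h.trans (sub_dvd_pow_sub_pow a c k))
  convert this using 1
  ring

theorem Hy.kn (H : Hy l Q τ φ V χ z) (a : g ∈ inP Q) (e : χ g = 1) : (χ φ - l) * z g = 0 := by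
  have := H.nrm
  obtain ⟨k, _, _, c, -, -, w⟩ := chi_data V H.opn H.ov
  have t := (inP Q).pow_mem a l
  have s := conj_inP H.fm a
  have r := mul_mem s (inv_mem t)
  have a1 := H.cc.mul _ (inP_le_dec r) _ (inP_le_dec t)
  rw [inv_mul_cancel_right, (H.cc.cj H.fm (inP_le_dec a)).1, (H.cc.pw (inP_le_dec a) l).1, e,
    one_pow, mul_one] at a1
  have e2 := (wild (k := 0) H.cc H.h3 H.co (inP_le_dec r) (by rw [← a1, one_pow])
    (w φ H.fb g a)).2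
  have b := H.cc.coc _ (inP_le_dec r) _ (inP_le_dec t)
  rw [inv_mul_cancel_right, ← a1, e2, (H.cc.cj H.fm (inP_le_dec a)).2,
    (H.cc.pw (inP_le_dec a) l).2.2.2 e, e] at b
  linear_combination b

/-- either inertia or the Frobenius element moves -/
theorem Hy.mv (H : Hy l Q τ φ V χ z) (q : Tq ρ J) (un : Un Q χ) (n : l ≠ pp) (rt : Rt ρ χ Q)
    (mv : Mv ρ χ Q) : χ τ - 1 ∣ tt ρ ∨ tt ρ ^ 2 ∣ χ τ - 1 ∧ χ φ - 1 ∣ tt ρ := by
  obtain ⟨a, ha⟩ := rt τ H.tm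
  obtain ⟨b, hb⟩ := rt φ H.fm
  obtain u | ⟨a', rfl⟩ := dic q a
  · obtain ⟨y, hy⟩ := u.exists_left_inv
    exact .inl ⟨y, by linear_combination - y * ha - tt ρ * hy⟩
  have d : tt ρ ^ 2 ∣ χ τ - 1 := ⟨a', by linear_combination ha⟩
  refine .inr ⟨d, ?_⟩
  obtain u | ⟨b', rfl⟩ := dic q b
  · obtain ⟨y, hy⟩ := u.exists_left_inv
    exact ⟨y, by linear_combination - y * hb - tt ρ * hy⟩
  obtain ⟨x, m, e⟩ := mv
  obtain ⟨k, i, v, -⟩ := H.val un n m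
  have d' := dv (c := 1) (show tt ρ ^ 2 ∣ χ φ - 1 from ⟨b', by linear_combination hb⟩) d k i
  rw [← v, one_pow] at d'
  obtain ⟨c, hc⟩ := d'.trans e
  have n1 : IsNilpotent (-(tt ρ * c)) := ⟨J, by rw [neg_pow, mul_pow, nil q]; ring⟩
  have t0 : tt ρ = 0 := (n1.isUnit_add_left_of_commute isUnit_one
    (Commute.all _ _)).mul_right_eq_zero.1 (by linear_combination hc)
  rw [t0]
  exact dvd_zero _

theorem lo1 (H : Hy l Q τ φ V χ z) (q : Tq ρ J) (n : l ≠ pp) (rt : Rt ρ χ Q) (mv : Mv ρ χ Q) :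
    ∃ m, ∀ g ∈ dec Q, tt ρ ^ 2 * z g = (χ g - 1) * m := by
  have un : Un Q χ := ⟨J, fun s m => uni q (rt s (inP_le_dec m))⟩
  obtain ⟨u, hu⟩ | ⟨-, a, ha⟩ := H.mv q un n rt mv
  · refine ⟨tt ρ * u * z τ, fun g m => ?_⟩
    have := H.ram H.tg.1 m
    rw [hu]
    linear_combination u ^ 2 * this
  refine ⟨tt ρ * a * z φ, H.cob un _ _ ?_ (by linear_combination tt ρ * z φ * ha)⟩
  have m : τ * φ * τ⁻¹ * φ⁻¹ ∈ inP Q := by
    simpa only [mul_assoc] using mul_mem H.tg.1 (conj_inP H.fm (inv_mem H.tg.1))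
  have k := H.kn m (H.cm H.tm H.fm)
  have s := H.spl H.tm H.fm
  generalize z (τ * φ * τ⁻¹ * φ⁻¹) = y at k s
  have k' : (χ φ - 1) * y = 0 := by
    by_cases e : (l : ZMod pp) = 1
    · have e' : (l : R) = 1 := by
        rw [← map_natCast (ρ.comp PowerSeries.C), e, map_one]
      rwa [e'] at k
    obtain ⟨b, hb⟩ := rt φ H.fm
    have u := ((sub_ne_zero.2 (Ne.symm e)).isUnit).map (ρ.comp PowerSeries.C)
    rw [map_sub, map_one, map_natCast] at u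
    have n1 : IsNilpotent (tt ρ * b) := ⟨J, by rw [mul_pow, nil q, zero_mul]⟩
    rw [(n1.isUnit_add_left_of_commute u (Commute.all _ _)).mul_right_eq_zero.1
      (show _ * y = 0 by linear_combination k - y * hb), mul_zero]
  rw [ha]
  linear_combination - a ^ 2 * k' + a ^ 2 * (χ φ - 1) * s

/-- one place -/
theorem loc1 (q : Tq ρ J) (j : 2 ≤ J) (o : Ov l Q) (n3 : l ≠ pp) (mv : Rt ρ χ Q → Mv ρ χ Q)
    {V₀ : Subgroup GQ} (v1 : V₀.Normal) (v2 : IsOpen (V₀ : Set GQ)) {z₀ : GQ → R}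
    (c0 : Cc (dec Q) V₀ χ z₀) :
    ∃ (τ φ : GQ) (α β : R), ∀ (z : GQ → R) (V : Subgroup GQ), V.Normal → IsOpen (V : Set GQ) →
      Cc (dec Q) V χ z → (∀ g, tt ρ * z g = 0) → (α * z τ + β * z φ = 0 ∨ ¬ Rw ρ χ Q) →
        ∃ m, ∀ g ∈ dec Q, z g = (χ g - 1) * m := by
  obtain ⟨τ, tg⟩ := exists_tau o
  obtain ⟨φ, fb⟩ := exists_phi o.1 o.2.1 o.2.2
  have co : l.Coprime pp := (Nat.coprime_primes o.1 pp_prime).2 n3
  have hy : ∀ (z : GQ → R) (V : Subgroup GQ), V.Normal → IsOpen (V : Set GQ) → Cc (dec Q) V χ z →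
      Hy l Q τ φ V χ z := fun z V a b c => ⟨o, co, chr ρ, tg, fb, a, b, c⟩
  have H0 := hy _ V₀ v1 v2 c0
  by_cases un : ∃ t, Inert Q t ∧ IsUnit (χ t - 1)
  · obtain ⟨τ, φ, α, β, k⟩ := loc q o n3 (.inl (un.imp fun t h => ⟨h.1, h.2.dvd⟩)) v1 v2 c0
    exact ⟨τ, φ, α, β, fun z V a b c e _ => (k z V a b c).2 j e (.inr (.inl un))⟩
  have rs : ∀ s ∈ inP Q, tt ρ ∣ χ s - 1 := fun s m => (dic q _).resolve_left fun u => un ⟨s, m, u⟩
  have U : Un Q χ := ⟨J, fun s m => uni q (rs s m)⟩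
  have nw : ¬ Rw ρ χ Q → ∀ ψ, Fb l Q ψ → IsUnit (χ ψ - l) := fun e ψ f =>
    (dic q _).resolve_right fun d => e fun g m => by
      obtain ⟨k, i, e1, e2⟩ := Hy.val ⟨o, co, chr ρ, tg, f, v1, v2, c0⟩ U n3 m
      rw [e1, e2, map_pow, map_pow, map_natCast, map_natCast]
      exact dv d (rs τ tg.1) k i
  by_cases t : χ τ - 1 ∣ tt ρ
  · obtain ⟨τ, φ, α, β, k⟩ := loc q o n3 (.inl ⟨τ, tg.1, t⟩) v1 v2 c0
    exact ⟨τ, φ, α, β, fun z V a b c e d => (k z V a b c).2 j e (d.imp id fun d => .inr (nw d))⟩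
  obtain ⟨b₀, hb₀⟩ := rs τ tg.1
  refine ⟨τ, φ, 1, 0, fun z V a1 a2 c k e => ?_⟩
  have e0 : z τ = 0 := e.elim (fun e => by linear_combination e) fun e => by
    have e1 := ((hy z V a1 a2 c).fr U).2
    rw [zpw c H0.tm (by linear_combination z τ * hb₀ + b₀ * k τ)] at e1
    exact (nw e φ fb).mul_right_eq_zero.1 (by linear_combination e1 + z φ * hb₀ + b₀ * k φ)
  obtain v | d := dic q (χ φ - 1)
  · obtain ⟨y, hy'⟩ := v.exists_left_inv
    refine ⟨y * z φ, fun g m => (one_mul _).symm.trans ((hy z V a1 a2 c).cob U 1 _ ?_ ?_ g m)⟩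
    · linear_combination e0 - y * z φ * hb₀ - y * b₀ * k φ
    · linear_combination - z φ * hy'
  have rt : Rt ρ χ Q := fun g m => by
    obtain ⟨k, i, e1, -⟩ := H0.val U n3 m
    simpa only [e1, one_pow] using dv (c := 1) d (rs τ tg.1) k i
  obtain ⟨⟨b, hb⟩, a, ha⟩ := (H0.mv q U n3 rt (mv rt)).resolve_left t
  obtain ⟨s, hs⟩ := ann q j (k φ)
  have k0 := k φ
  generalize tt ρ ^ (J - 2) * ρ (PowerSeries.C s) = y at hs
  refine ⟨a * y, fun g m => (one_mul _).symm.trans ((hy z V a1 a2 c).cob U 1 _ ?_ ?_ g m)⟩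
  · linear_combination e0 - a * y * hb - a * b * k0 + a * b * tt ρ * hs
  · linear_combination hs + y * ha

end Li

open Li in
theorem lo1 : LO1 := fun R _ ρ J q Γ T χ P G h x l m n Q o => by
  obtain ⟨V, a1, a2, c⟩ := glob (P014Y.Pr.Ge.of G.toGd G.pm) x
  obtain ⟨τ, tg⟩ := exists_tau o
  obtain ⟨φ, fb⟩ := exists_phi o.1 o.2.1 o.2.2
  exact Li.lo1 ⟨o, (Nat.coprime_primes o.1 pp_prime).2 n, chr ρ, tg, fb, a1, a2,
    c.mono (h l m n Q o).1⟩ q n (h l m n Q o).2.1 (h l m n Q o).2.2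

open Li in
theorem loi : LOI := fun R _ ρ J q j Γ T U χ P G₀ h ki fin => by
  classical
  have G := P014Y.Pr.Ge.of G₀.toGd G₀.pm
  have kt : ∀ (x : Zr Γ T χ P) g, tt ρ * x.1.1 g 0 = 0 := fun x g => by simpa using ki x g
  obtain ⟨V₀, v1, v2, c0⟩ := glob (P := P) G 0
  have L := fun l (m : l ∈ T) (n : l ≠ pp) Q (o : Ov l Q) =>
    loc1 q j o n (h l m n Q o).2.1 v1 v2 (c0.mono (h l m n Q o).1)
  obtain ⟨γ, hγ⟩ := Subgroup.index_eq_two_iff.1 G.idx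
  let U' := U ∩ T.erase pp
  have mem : ∀ i : U', i.1 ∈ T ∧ i.1 ≠ pp := fun i =>
    (Finset.mem_erase.1 (Finset.mem_inter.1 i.2).2).symm
  choose Q₀ o₀ using fun i : U' => P022K.GW.Pl.ex_ov (G.pr _ (mem i).1)
  let Q : U' × Bool → Ideal (𝓞 Qb) := fun i => if i.2 then Q₀ i.1 else γ⁻¹ • Q₀ i.1
  have o : ∀ i, Ov i.1.1 (Q i) := fun ⟨i, b⟩ => by
    cases b
    exacts [P022K.GW.ov_smul (o₀ i) _, o₀ i]
  choose τ φ α β k using fun i : U' × Bool => L _ (mem i.1).1 (mem i.1).2 _ (o i)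
  let F : Zr Γ T χ P →+ (U' × Bool → R) := AddMonoidHom.mk'
    (fun x i => α i * x.1.1 (τ i) 0 + β i * x.1.1 (φ i) 0) fun x y => funext fun i => by
      simp only [Submodule.coe_add, Prod.fst_add, Pi.add_apply]
      ring
  have k1 : ∀ x ∈ F.ker, x ∈ Y0 Γ T χ P := fun x e l m n Q' o' => by
    obtain ⟨V, a1, a2, c⟩ := glob G x
    by_cases s : l ∈ U
    swap
    · obtain ⟨τ, φ, α, β, k⟩ := L l m n Q' o'
      exact k _ V a1 a2 (c.mono (h l m n Q' o').1) (kt x) (.inr (mt (h l m n Q' o').2.2 s))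
    let i : U' := ⟨l, Finset.mem_inter.2 ⟨s, Finset.mem_erase.2 ⟨n, m⟩⟩⟩
    have le := fun b => (h l m n _ (o (i, b))).1
    have u := fun b => k (i, b) _ V a1 a2 (c.mono (le b)) (kt x) (.inl (congrFun e (i, b)))
    obtain ⟨g, rfl⟩ := P022K.GW.Pl.ov_trans (o₀ i) o'
    obtain ⟨a, -⟩ | ⟨a, -⟩ := hγ g
    · have := move c (le false) a (u false)
      rwa [show (g * γ) • Q (i, false) = g • Q₀ i by
        rw [show Q (i, false) = γ⁻¹ • Q₀ i from rfl, mul_smul, smul_inv_smul]] at this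
    · exact move c (le true) a (u true)
  have k2 : ∀ y : F.range, ∃ c : U' × Bool → ZMod pp,
      y.1 = fun i => tt ρ * (tt ρ ^ (J - 2) * ρ (PowerSeries.C (c i))) := fun ⟨_, x, rfl⟩ => by
    choose c hc using fun i => ann q j (x := F x i) (by
      show tt ρ * (α i * x.1.1 (τ i) 0 + β i * x.1.1 (φ i) 0) = 0
      linear_combination α i * kt x (τ i) + β i * kt x (φ i))
    exact ⟨c, funext hc⟩
  choose c hc using k2
  have n1 : Nat.card F.range ≤ pp ^ (2 * U.card) := by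
    refine (Nat.card_le_card_of_injective c fun y y' e => Subtype.ext ?_).trans ?_
    · rw [hc, hc, e]
    · rw [Nat.card_fun, Nat.card_zmod, Nat.card_prod, Nat.card_eq_fintype_card, Fintype.card_coe,
        Nat.card_eq_fintype_card, Fintype.card_bool, mul_comm]
      exact Nat.pow_le_pow_right pp_pos
        (Nat.mul_le_mul_left 2 (Finset.card_le_card Finset.inter_subset_left))
  have n2 : Nat.card F.ker ≤ Nat.card (Y0 Γ T χ P) :=
    Nat.card_le_card_of_injective (fun x => ⟨x.1, k1 x.1 x.2⟩) fun x y e =>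
      Subtype.ext (congrArg (fun t : Y0 Γ T χ P => t.1) e)
  rw [← F.ker.index_mul_card, AddSubgroup.index_ker]
  exact Nat.mul_le_mul n1 n2

end Vale.Agent.P014Z.Ra
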