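import Vale.Agent.P014Z.Ml.Wd
import Mathlib.Algebra.Module.ZMod

/-! # P014Z, block Ra: orthogonal subgroups (helper16) -/

set_option autoImplicit false
set_option linter.all false

open PowerSeries Module

noncomputable section

namespace Vale.Agent.P014Z.Ra.Or

open Vale.Agent.P014U Ml

variable [Pp] {R : Type} [CommRing R] {ρ : (ZMod pp)⟦X⟧ →+* R} {J : ℕ}

theorem fin (h : Tq ρ J) : Finite R :=
  .of_surjective (fun c : Fin J → ZMod pp => ρ (mk fun n => if k : n < J then c ⟨n, k⟩ else 0))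
    fun y => by
      obtain ⟨s, rfl⟩ := h.sur y
      refine ⟨fun i => coeff i s, sub_eq_zero.1 ?_⟩
      rw [← map_sub, h.ker, X_pow_dvd_iff]
      exact fun m k => by simp [k]

theorem pz (ρ : (ZMod pp)⟦X⟧ →+* R) (x : R) : pp • x = 0 := by
  rw [nsmul_eq_mul, ← map_natCast (ρ.comp C), ZMod.natCast_self, map_zero, zero_mul]

theorem lam (h : Tq ρ J) : ∃ f : R →+ ZMod pp, ∀ y ≠ 0, ∃ x, f (x * y) ≠ 0 := by
  have k : ∀ y ≠ 0, ∃ s, ρ s = y ∧ ∃ m < J, coeff m s ≠ 0 := fun y n => by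
    obtain ⟨s, rfl⟩ := h.sur y
    exact ⟨s, rfl, by simpa [h.ker, X_pow_dvd_iff] using n⟩
  rcases J with _ | n
  · exact ⟨0, fun y e => by simpa using k y e⟩
  let f := ρ.toAddMonoidHom.liftOfSurjective h.sur ⟨(coeff n).toAddMonoidHom, fun s e =>
    X_pow_dvd_iff.1 ((h.ker s).1 e) n n.lt_succ_self⟩
  refine ⟨f, fun y e => ?_⟩
  obtain ⟨s, rfl, m, a, b⟩ := k y e
  obtain ⟨d, rfl⟩ := Nat.exists_eq_add_of_le (Nat.lt_succ_iff.1 a)
  refine ⟨ρ (X ^ d), ?_⟩
  rw [← map_mul, show f (ρ (X ^ d * s)) = coeff (m + d) (X ^ d * s) from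
    AddMonoidHom.liftOfRightInverse_comp_apply _ _ _ _ _, coeff_X_pow_mul]
  exact b

theorem hom {p : ℕ} [Fact p.Prime] {H : Type} [AddCommGroup H] [Finite H] [Module (ZMod p) H] :
    Finite (H →+ ZMod p) ∧ Nat.card (H →+ ZMod p) = Nat.card H := by
  have : Module.Finite (ZMod p) H := .of_finite
  refine ⟨.of_injective _ DFunLike.coe_injective, ?_⟩
  rw [Nat.card_congr (AddMonoidHom.toZModLinearMapEquiv p).toEquiv,
    natCard_eq_pow_finrank (K := ZMod p), natCard_eq_pow_finrank (K := ZMod p) (V := H)]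
  exact congrArg _ Subspace.dual_finrank_eq

theorem ort (h : Tq ρ J) {ι : Type} [Fintype ι] (w : ι → ℕ) (A B : AddSubgroup (ι → R))
    (hw : ∀ i, ¬ pp ∣ w i) (o : ∀ x ∈ A, ∀ y ∈ B, ∑ i, w i • (x i * y i) = 0) :
    Finite R ∧ Nat.card A * Nat.card B ≤ Nat.card R ^ Fintype.card ι := by
  classical
  have := fin h
  obtain ⟨f, hf⟩ := lam h
  let := AddCommGroup.zmodModule (n := pp) (G := (ι → R) ⧸ A) fun x => by
    obtain ⟨x, rfl⟩ := QuotientAddGroup.mk_surjective x
    rw [← QuotientAddGroup.mk_nsmul, show pp • x = 0 from funext fun i => pz ρ _]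
    rfl
  obtain ⟨k1, k2⟩ := hom (p := pp) (H := (ι → R) ⧸ A)
  let β (y : ι → R) : (ι → R) →+ ZMod pp :=
    f.comp (AddMonoidHom.mk' (fun x => ∑ i, w i • (x i * y i))
    fun a b => by simp only [Pi.add_apply, add_mul, smul_add, Finset.sum_add_distrib])
  have b (y : B) : A ≤ (β y).ker := fun x m => (congrArg f (o x m y y.2)).trans f.map_zero
  have l := Nat.card_le_card_of_injective (fun y : B => QuotientAddGroup.lift A (β y) (b y))
    fun y y' e => Subtype.ext (funext fun i => by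
      by_contra n
      obtain ⟨x, hx⟩ := hf (w i • (y.1 i - y'.1 i)) fun z => n (sub_eq_zero.1 (by
        rw [nsmul_eq_mul, ← map_natCast (ρ.comp C)] at z
        exact (((ZMod.isUnit_iff_coprime _ pp).2 (pp_prime.coprime_iff_not_dvd.2
          (hw i)).symm).map _).mul_right_eq_zero.1 z))
      have e := DFunLike.congr_fun e (QuotientAddGroup.mk (Pi.single i x : ι → R))
      rw [QuotientAddGroup.lift_mk', QuotientAddGroup.lift_mk'] at e
      have s : ∀ y, β y (Pi.single i x) = f (w i • (x * y i)) := fun y => congrArg f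
        ((Finset.sum_eq_single i (fun j _ n => by simp [n]) (by simp)).trans (by simp))
      rw [s, s, ← sub_eq_zero, ← map_sub, ← smul_sub, ← mul_sub, ← mul_smul_comm] at e
      exact hx e)
  refine ⟨fin h, ?_⟩
  rw [← Nat.card_eq_fintype_card, ← Nat.card_fun, A.card_eq_card_quotient_mul_card_addSubgroup,
    mul_comm]
  exact Nat.mul_le_mul_right _ (k2 ▸ l)

end Vale.Agent.P014Z.Ra.Or
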