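import Vale.Agent.P014Z.Ra.Fr
import Vale.Agent.P014Z.Ra.Cnt
import Vale.Agent.P014Z.Ra.Du1
import Vale.Agent.P014Z.Inr
import Vale.Agent.P014Z.St
import Vale.Agent.P022K.Cheb.Main

/-!
# P014Z, block Ra: the export from the count and the dictionary (helper58)
-/

set_option autoImplicit false
set_option linter.all false

open NumberField Matrix
open scoped Pointwise PowerSeries Classical

noncomputable section

namespace Vale.Agent.P014Z.Ra

open Vale.Agent.P022 Vale.Agent.P014U Vale.Agent.P014Y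
open Vale.Agent.P022D.W (dec exists_phi phi_mem)
open Vale.Agent.P022E.GW (Ov Fb)
open L2 (W M2)
open X4S (Pl)
open P014Y.F (Crv Fld)
open Mu (F Zx Ly tb Nf hz rb RSE)
open Bo (dg LEV2)
open Ml Gl Fr

variable [Pp]

namespace Rx

variable {a : GQ →* M2} {θ θ' : GQ →* F} {Γ : Subgroup GQ} {S : Finset ℕ} {J N c n : ℕ}
  {χ : GQ → ZMod n} {P : Ideal (𝓞 Qb)}

theorem on1 (t : Tri ⊤ a θ θ') {g : GQ} (h : a g = 1) : θ g = 1 ∧ θ' g = 1 := by
  obtain ⟨C, C', e, k⟩ := t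
  obtain ⟨-, k0, k1⟩ := k g trivial
  rw [h, mul_one, mul_eq_one_comm.1 e, one_apply_eq] at k0 k1
  exact ⟨k0.symm, k1.symm⟩

theorem on2 (t : Tri ⊤ a θ θ' ∨ Tri ⊤ a θ' θ) {g : GQ} (h : a g = 1) : θ g = 1 ∧ θ' g = 1 :=
  t.elim (on1 · h) fun t => (on1 t h).symm

theorem mz (t : Tri ⊤ a θ θ') (G : F.Gd Γ S a) (y : Ly Γ S N c fun g => (χ g).val) (o : Ov pp P)
    (fr : ∃ s ∈ S, s ≠ pp ∧ ∃ Q, Ov s Q ∧ ∀ g ∈ dec Q, a g = 1) (J0 : 0 < J) (hJ : J ≤ pp ^ N) :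
    Nat.card (Zx a Γ (S ∪ c.primeFactors) J (fun g => (χ g).val) P) ≤
      Nat.card (Zx (dg θ θ') Γ (S ∪ c.primeFactors) J (fun g => (χ g).val) P) ∧
    ∀ B, 2 * B ≤ J →
      Nat.card (Zx (dg θ θ') Γ (S ∪ c.primeFactors) J (fun g => (χ g).val) P) ≤ pp ^ B →
      Nat.card (Zx (dg θ θ') Γ (S ∪ c.primeFactors) J (fun g => (χ g).val) P) ≤
        Nat.card (Zx a Γ (S ∪ c.primeFactors) J (fun g => (χ g).val) P) := by
  have le := (y.fro pp G.pm P o).1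
  obtain ⟨s, m, n, Q, q, k⟩ := fr
  have rt : ∀ α : GQ →* F, (∀ g ∈ dec Q, α g = 1) → Rt (rq J) (tw (rq J) α (ch (rq J) χ)) Q :=
    fun α h g d => by
      rw [tw, h g d, map_one, map_one, one_mul]
      exact Rp.Gr.dv0 _ _
  rw [zx_dg le, zx_eq le]
  exact (mul _ _ J (tq J) J0 Γ _ _ a θ θ' P (ge_ch G y hJ) (ge_mono G c)
    (t.imp fun _ t => t.imp fun _ t => ⟨t.1, fun g _ => t.2 g trivial⟩) o le
    (.inr ⟨s, Finset.mem_union_left _ m, n, Q, q, (y.fro s m Q q).1,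
      rt θ fun g d => (on1 t (k g d)).1, rt θ' fun g d => (on1 t (k g d)).2⟩)).2

theorem pa_one (η η' : Ch) : pa η η' 1 = dg η η' := by
  have : η ^ (1 + (pp - 2) * 1) = 1 := MonoidHom.ext fun g => by
    rw [show 1 + (pp - 2) * 1 = pp - 1 by have := pp_prime.two_le; omega]
    exact ZMod.pow_card_sub_one_eq_one (Rd.ch_ne η g)
  rw [pa, this, pow_one, mul_one]

theorem rs (hR : RSE) {e : Crv} {η η' : Ch} {k : ℕ} (h : Ec e η η' k) :
    Mu.Rs (dg η η') e.S.toFinset :=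
  have r := (hR e).1
  have z : ∀ {g}, rb e g = 1 → dg η η' g = 1 := fun m =>
    Rk.dg_on1 (on2 h.tri m).1 (on2 h.tri m).2
  ⟨⟨Subgroup.isOpen_mono (fun _ m => z m) r.opn, funext fun g =>
    ((Rk.dg_det η η' g).trans (h.det g)).trans (X4S.Aq.om_oz g).symm⟩, r.pm, r.pr,
    fun g m => z (r.unr g m)⟩

theorem gd {e : Crv} {η η' : Ch} {k : ℕ} (h : Ec e η η' k) (b : Fld e) :
    F.Gd b.Γ e.S.toFinset (dg η η') :=
  have G : F.Gd b.Γ e.S.toFinset (rb e) := Mu.Ap.gd b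
  have z : ∀ {g}, rb e g = 1 → dg η η' g = 1 := fun m =>
    Rk.dg_on1 (on2 h.tri m).1 (on2 h.tri m).2
  ⟨⟨G.opn, G.idx, G.cx, G.two, G.pr, map_one _, fun g _ h _ => map_mul _ g h,
    G.lc.imp fun W k => ⟨k.1, fun w a m => z (k.2 w a m)⟩, fun g a m => z (G.unr g a m)⟩, G.pm⟩

/-- an abelian character which is trivial on one decomposition group is trivial on the others -/
theorem om1 {q : ℕ} {Q : Ideal (𝓞 Qb)} (o : Ov q Q) (m : q ≡ 1 [MOD pp ^ (N + 1)]) {g : GQ}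
    (d : g ∈ dec Q) : P022K.G2.oz pp g = 1 :=
  Rp.Gr.dec_oz o (Eq.trans (m.of_dvd (dvd_pow_self _ N.succ_ne_zero)) (Nat.mod_eq_of_lt one_lt)) d

/-- a power of `T` kills the group of the split plane -/
theorem kl (hR : RSE) (hL : LEV2) {e : Crv} (D : Da e) (b : Fld e) {n c χ γ}
    (lz : Gl.Lz b D.η n c χ γ) (kd : Kd b D.η D.η' c χ) : ∀ J ≤ pp ^ (n + 1),
    ∀ x ∈ Zx (dg D.η D.η') b.Γ (e.S.toFinset ∪ c.primeFactors) J (fun g => (χ g).val) (e.P pp),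
      ∀ g, tb J ^ 5 • x g = 0 := by
  obtain ⟨σ, k1, k2⟩ := kd
  have k3 := k2 1 (Nat.coprime_one_left _)
  rw [pa_one] at k3
  refine hL _ _ _ (rs hR D.ec) _ c _ c.primeFactors σ _ n.succ_pos lz.ly lz.one (e.ov _ e.pm)
    (fun q m => ?_) (fun q p d => .inl (Nat.mem_primeFactors.2 ⟨p, d, lz.ly.c0⟩)) (.inl k3)
  obtain ⟨⟨Q, o, f⟩, z⟩ := k1 q m
  have d := Nat.dvd_of_mem_primeFactors m
  have s := phi_mem o.1 o.2.1 f
  have e1 : D.η (σ q) = 1 := (lz.hc q Q o d s).2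
  refine ⟨d, ⟨Q, o, f⟩, Rk.dg_on1 e1 ?_, z⟩
  have := D.ec.det (σ q)
  rwa [e1, one_mul, om1 o (lz.ly.out q o.1 d).2.2 s] at this

theorem n1 (hR : RSE) {e : Crv} (D : Da e) (b : Fld e) : ∃ g ∈ b.Γ, D.η g ≠ 1 := by
  by_contra! h
  obtain ⟨t, n, z⟩ := ((hR e).2.2 b).2.2.2.2.2.2.1
  have G : F.Gd b.Γ e.S.toFinset (rb e) := Mu.Ap.gd b
  have e1 : D.η t = 1 := (on2 D.ec.tri (show rb e t = 1 from F.Cn.rb_of z)).1
  have e2 : ∀ g, D.η g = 1 := fun g => by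
    by_cases m : g ∈ b.Γ
    · exact h g m
    · have := h (g * t) (by simp [Subgroup.mul_mem_iff_of_index_two G.idx, m, n])
      rwa [map_mul, e1, mul_one] at this
  have e3 : D.ψ = 1 := MulChar.ext fun u => by
    obtain ⟨g, rfl⟩ := P022K.Cheb.cyc_surj D.f u
    have := D.dc.eq g _ fun ζ k => H853.cyc_spec g k
    rw [ZMod.natCast_zmod_val, e2] at this
    rw [← this, MulChar.one_apply_coe]
  have := D.dc.prim
  rw [DirichletCharacter.isPrimitive_def, e3, DirichletCharacter.conductor_one] at this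
  exact D.dc.one.ne this

theorem n2 {e : Crv} (D : Da e) (b : Fld e) : ∃ g ∈ b.Γ, D.η' g ≠ 1 := by
  have o := e.ov _ e.pm
  obtain ⟨i, m, z⟩ := Inr.oz_in o (u := -1) (neg_ne_zero.2 one_ne_zero)
  have := D.ec.det i
  rw [D.ec.ine _ i o m, z, D.ec.ev.neg_one_pow, one_mul] at this
  refine ⟨i, b.le pp e.pm (P022D.W.inP_le_dec m), fun k => ?_⟩
  have two : ((2 : ℕ) : ZMod pp) = 0 := by
    push_cast
    linear_combination this - k
  have := Nat.le_of_dvd two_pos ((ZMod.natCast_eq_zero_iff 2 pp).1 two)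
  have := D.five
  omega

theorem fr {e : Crv} (D : Da e) {l : ℕ} {Q : Ideal (𝓞 Qb)} (o : Ov l Q) (n : D.ψ l ≠ 0) :
    (∀ φ, Fb l Q φ → D.η φ = D.ψ l) ∧ ∀ i, P027M.S.Inert Q i → D.η i = 1 := by
  have nd : ¬ l ∣ D.f := fun d => n (D.ψ.map_nonunit fun u =>
    o.1.one_lt.ne' (Nat.eq_one_of_dvd_coprimes ((ZMod.isUnit_iff_coprime _ _).1 u) dvd_rfl d))
  refine ⟨fun φ f => D.dc.eq φ l fun ζ k => P014T.Dr.root_cong o nd f k, fun i m => ?_⟩
  have := D.dc.eq i 1 fun ζ k => P014T.Dr.root_cong o nd (a := 1) (fun x => by rw [pow_one]; exact m x) k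
  rwa [Nat.cast_one, map_one] at this

theorem dA (hR : RSE) {e : Crv} (D : Da e) {l : ℕ} {Q : Ideal (𝓞 Qb)} (o : Ov l Q) (h : D.ψ l = 1) :
    ∀ g ∈ dec Q, D.η g = 1 := fun g m => by
  obtain ⟨φ, f⟩ := exists_phi o.1 o.2.1 o.2.2
  obtain ⟨a, c⟩ := fr D o (h ▸ one_ne_zero)
  exact P004S.lt.dec_le o f (U := D.η.ker) (Subgroup.isOpen_mono
    (fun _ k => (on2 D.ec.tri k).1) (hR e).1.opn) ((a φ f).trans h) c m

theorem dB (hR : RSE) {e : Crv} (D : Da e) {l : ℕ} {Q : Ideal (𝓞 Qb)} (o : Ov l Q) (n : l ≠ pp)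
    (h : D.ψ l = l) : ∀ g ∈ dec Q, D.η' g = 1 := fun g m => by
  obtain ⟨φ, f⟩ := exists_phi o.1 o.2.1 o.2.2
  have z := D1.oz_fb o n f
  have l0 : (l : ZMod pp) ≠ 0 := z ▸ P022K.G2.oz_ne φ
  obtain ⟨a, c⟩ := fr D o (h ▸ l0)
  refine P004S.lt.dec_le o f (U := D.η'.ker) (Subgroup.isOpen_mono
    (fun _ k => (on2 D.ec.tri k).2) (hR e).1.opn) ?_ (fun i k => ?_) m
  · have := D.ec.det φ
    rw [a φ f, h, z] at this
    exact mul_left_cancel₀ l0 (this.trans (mul_one _).symm)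
  · have := D.ec.det i
    rwa [c i k, one_mul, P022K.G2.mem_Gz.1 (P022K.G2.inert_gz o n k)] at this

theorem crd {S : List ℕ} (nd : S.Nodup) {C : Finset ℕ} (dj : ∀ q ∈ C, q ∉ S.toFinset)
    (p : ℕ → Bool) : (C ∪ (S.filter p).toFinset).card = C.card + (S.filter p).length := by
  rw [Finset.card_union_of_disjoint (Finset.disjoint_left.2 fun q a b => dj q a
    (List.mem_toFinset.2 (List.mem_of_mem_filter (List.mem_toFinset.1 b)))),
    List.toFinset_card_of_nodup (nd.filter p)]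

/-- **the count with the dictionary** -/
theorem low (hR : RSE) {e : Crv} (D : Da e) (b : Fld e) {n c χ γ} (lz : Gl.Lz b D.η n c χ γ)
    (J2 : 2 ≤ J) (hJ : J ≤ pp ^ (n + 1)) : pp ^ (2 * (2 * c.primeFactors.card + cs D.ψ e.S)) ≤
    Nat.card (Zx (dg D.η D.η') b.Γ (e.S.toFinset ∪ c.primeFactors) J (fun g => (χ g).val)
      (e.P pp)) := by
  have G := gd D.ec b
  have r := rs hR D.ec
  have ot := fun q (m : q ∈ c.primeFactors) =>
    lz.ly.out q (Nat.prime_of_mem_primeFactors m) (Nat.dvd_of_mem_primeFactors m)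
  have sb : ∀ p : ℕ → Bool, c.primeFactors ∪ (e.S.filter p).toFinset ⊆
      e.S.toFinset ∪ c.primeFactors := fun p => Finset.union_subset Finset.subset_union_right
    fun l m => Finset.mem_union_left _
      (List.mem_toFinset.2 (List.mem_of_mem_filter (List.mem_toFinset.1 m)))
  have hq : ∀ q ∈ c.primeFactors, ∀ Q, Ov q Q → ∀ g ∈ dec Q, D.η g = 1 := fun q m Q o g d =>
    (lz.hc q Q o (Nat.dvd_of_mem_primeFactors m) d).2
  have := Ct.cnt1 (tq J) J2 (ge_ch G lz.ly hJ) (fun g _ => Rp.Gr.dv0 _ _)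
    (fun l m => (Finset.mem_union.1 m).elim (fun m Q o => (lz.ly.fro l m Q o).1)
      fun m => (ot l m).2.1) D.η D.η'
    ⟨r.toR0, Finset.mem_union_left _ r.pm, (ge_mono G c).pr, fun g ⟨l, k, x⟩ =>
      r.unr g ⟨l, fun m => k (Finset.mem_union_left _ m), x⟩⟩
    (n1 hR D b) (n2 D b) (e.ov _ e.pm) _ _ (sb fun l => D.ψ l = 1) (sb fun l => l ≠ pp ∧ D.ψ l = l)
    (fun l m Q o => (Finset.mem_union.1 m).elim (fun m => hq l m Q o) fun m =>
      dA hR D o (of_decide_eq_true (List.mem_filter.1 (List.mem_toFinset.1 m)).2))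
    (fun l m Q o => (Finset.mem_union.1 m).elim (fun m g d => by
      have := D.ec.det g
      rwa [hq l m Q o g d, one_mul, om1 o (ot l m).2.2 d] at this) fun m =>
      have k : l ≠ pp ∧ D.ψ l = l := of_decide_eq_true (List.mem_filter.1 (List.mem_toFinset.1 m)).2
      dB hR D o k.1 k.2)
  rw [crd e.nd fun q m => (ot q m).1, crd e.nd fun q m => (ot q m).1] at this
  rw [zx_dg (b.le pp e.pm), cs]
  exact le_of_eq_of_le (congrArg _ (by ring)) this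

theorem mz2 (t : Tri ⊤ a θ θ' ∨ Tri ⊤ a θ' θ) (G : F.Gd Γ S a) (y : Ly Γ S N c fun g => (χ g).val)
    (o : Ov pp P) (fr : ∃ s ∈ S, s ≠ pp ∧ ∃ Q, Ov s Q ∧ ∀ g ∈ dec Q, a g = 1) (J0 : 0 < J)
    (hJ : J ≤ pp ^ N) : Nat.card (Zx a Γ (S ∪ c.primeFactors) J (fun g => (χ g).val) P) ≤
      Nat.card (Zx (dg θ θ') Γ (S ∪ c.primeFactors) J (fun g => (χ g).val) P) ∧
    ∀ B, 2 * B ≤ J →
      Nat.card (Zx (dg θ θ') Γ (S ∪ c.primeFactors) J (fun g => (χ g).val) P) ≤ pp ^ B →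
      Nat.card (Zx (dg θ θ') Γ (S ∪ c.primeFactors) J (fun g => (χ g).val) P) ≤
        Nat.card (Zx a Γ (S ∪ c.primeFactors) J (fun g => (χ g).val) P) := by
  rcases t with t | t
  · exact mz t G y o fr J0 hJ
  · rw [zx_sw (y.fro pp G.pm P o).1]
    exact mz t G y o fr J0 hJ

end Rx

open Rx in
/-- **the export** -/
theorem rax0 (hR : RSE) (hL : LEV2) : RAX := fun e D b m => by
  have G : F.Gd b.Γ e.S.toFinset (rb e) := Mu.Ap.gd b
  obtain ⟨B, hB⟩ := bd (gd D.ec b) m 5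
  obtain ⟨s, s1, s2, s3⟩ := e.aux
  have fr : ∃ s ∈ e.S.toFinset, s ≠ pp ∧ ∃ Q, Ov s Q ∧ ∀ g ∈ dec Q, rb e g = 1 :=
    ⟨s, List.mem_toFinset.2 s1, s2, _, e.ov s s1, s3⟩
  refine ⟨2 * B + 2, fun n c χ γ lz kd cd J l => ?_⟩
  have u := hB _ _ _ J (fun l => Nat.prime_of_mem_primeFactors) cd (kl hR hL D b lz kd J l)
  have M := fun J0 : 0 < J => mz2 D.ec.tri G lz.ly (e.ov _ e.pm) fr J0 l
  rw [Mu.z0_eq]
  refine ⟨?_, fun k => ?_⟩
  · rcases J.eq_zero_or_pos with rfl | J0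
    · exact (zero_le _ _ _ _ _).trans (Nat.one_le_pow _ _ pp_pos)
    · exact ((M J0).1.trans u).trans (Nat.pow_le_pow_right pp_pos (by omega))
  · exact (low hR D b lz (by omega) l).trans ((M (by omega)).2 B (by omega) u)

end Vale.Agent.P014Z.Ra
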